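import Mathlib

/-!
Norms on `ℝ^n` given by functions: duality and gradients.
-/

open MeasureTheory Set Filter
open scoped ENNReal NNReal RealInnerProductSpace Topology

namespace Vale.Agent.P084

/-- The coordinate space `ℝ^n`. -/
abbrev Vec (n : ℕ) : Type := EuclideanSpace ℝ (Fin n)

/-- `N` is a norm on `ℝ^n`. -/
structure IsNrm {n : ℕ} (N : Vec n → ℝ) : Prop where
  tri : ∀ a b, N (a + b) ≤ N a + N b
  smul : ∀ (c : ℝ) (a : Vec n), N (c • a) = |c| * N a
  pos : ∀ a, a ≠ 0 → 0 < N a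

/-- The dual norm. -/
noncomputable def dual {n : ℕ} (N : Vec n → ℝ) (q : Vec n) : ℝ :=
  sSup ((fun v => ⟪q, v⟫) '' {v | N v ≤ 1})

/-- The gradient. -/
noncomputable def gr {n : ℕ} (N : Vec n → ℝ) (z : Vec n) : Vec n :=
  (InnerProductSpace.toDual ℝ (Vec n)).symm (fderiv ℝ N z)

variable {n : ℕ} {N : Vec n → ℝ}

theorem inner_gr (N : Vec n → ℝ) (z v : Vec n) : ⟪gr N z, v⟫ = fderiv ℝ N z v :=
  InnerProductSpace.toDual_symm_apply

theorem measurable_gr (N : Vec n → ℝ) : Measurable (gr N) :=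
  (InnerProductSpace.toDual ℝ (Vec n)).symm.continuous.measurable.comp (measurable_fderiv ℝ N)

namespace IsNrm

theorem map_zero (h : IsNrm N) : N 0 = 0 := by
  have := h.smul 0 0
  simpa using this

theorem nonneg (h : IsNrm N) (a : Vec n) : 0 ≤ N a := by
  rcases eq_or_ne a 0 with rfl | ha
  · exact h.map_zero.ge
  · exact (h.pos a ha).le

theorem map_neg (h : IsNrm N) (a : Vec n) : N (-a) = N a := by
  have := h.smul (-1) a
  simpa using this

theorem smul_nonneg (h : IsNrm N) {c : ℝ} (hc : 0 ≤ c) (a : Vec n) : N (c • a) = c * N a := by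
  rw [h.smul, abs_of_nonneg hc]

theorem sub_le (h : IsNrm N) (a b : Vec n) : N a - N b ≤ N (a - b) := by
  have := h.tri (a - b) b
  rw [sub_add_cancel] at this
  linarith

theorem abs_sub_le (h : IsNrm N) (a b : Vec n) : |N a - N b| ≤ N (a - b) := by
  have h1 := h.sub_le a b
  have h2 := h.sub_le b a
  rw [← h.map_neg (b - a), neg_sub] at h2
  exact abs_le.2 ⟨by linarith, h1⟩

theorem sum_le (h : IsNrm N) {ι : Type*} (s : Finset ι) (v : ι → Vec n) :
    N (∑ i ∈ s, v i) ≤ ∑ i ∈ s, N (v i) :=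
  Finset.le_sum_of_subadditive N h.map_zero.le h.tri s v

theorem exists_upper (h : IsNrm N) : ∃ C : ℝ≥0, ∀ a, N a ≤ C * ‖a‖ := by
  set C : ℝ := ∑ i, N (EuclideanSpace.single i (1 : ℝ)) with hC
  have hC0 : 0 ≤ C := Finset.sum_nonneg fun i _ => h.nonneg _
  refine ⟨⟨C, hC0⟩, fun a => ?_⟩
  have hsum : a = ∑ i, a i • EuclideanSpace.single i (1 : ℝ) := by
    ext j
    simp [Finset.sum_apply, Pi.single_apply]
  calc N a = N (∑ i, a i • EuclideanSpace.single i (1 : ℝ)) := by rw [← hsum]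
    _ ≤ ∑ i, N (a i • EuclideanSpace.single i (1 : ℝ)) := h.sum_le _ _
    _ ≤ ∑ i, ‖a‖ * N (EuclideanSpace.single i (1 : ℝ)) := by
        refine Finset.sum_le_sum fun i _ => ?_
        rw [h.smul]
        exact mul_le_mul_of_nonneg_right
          (by simpa [Real.norm_eq_abs] using PiLp.norm_apply_le a i) (h.nonneg _)
    _ = C * ‖a‖ := by rw [← Finset.mul_sum, mul_comm]

theorem exists_lipschitz (h : IsNrm N) : ∃ C : ℝ≥0, LipschitzWith C N := by
  obtain ⟨C, hC⟩ := h.exists_upper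
  refine ⟨C, LipschitzWith.of_dist_le_mul fun a b => ?_⟩
  rw [Real.dist_eq, dist_eq_norm]
  exact (h.abs_sub_le a b).trans (hC _)

theorem continuous (h : IsNrm N) : Continuous N := by
  obtain ⟨C, hC⟩ := h.exists_lipschitz
  exact hC.continuous

theorem exists_lower (h : IsNrm N) : ∃ c : ℝ, 0 < c ∧ ∀ a, c * ‖a‖ ≤ N a := by
  rcases (Metric.sphere (0 : Vec n) 1).eq_empty_or_nonempty with he | hne
  · refine ⟨1, one_pos, fun a => ?_⟩
    rcases eq_or_ne a 0 with rfl | ha
    · simp [h.map_zero]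
    · exfalso
      have hm : ‖a‖⁻¹ • a ∈ Metric.sphere (0 : Vec n) 1 := by
        simp [norm_smul, ha]
      simp [he] at hm
  · obtain ⟨x, hx, hmin⟩ := (isCompact_sphere (0 : Vec n) 1).exists_isMinOn hne
      h.continuous.continuousOn
    have hx0 : x ≠ 0 := by
      rintro rfl; simp at hx
    refine ⟨N x, h.pos x hx0, fun a => ?_⟩
    rcases eq_or_ne a 0 with rfl | ha
    · simp [h.map_zero]
    have hm : ‖a‖⁻¹ • a ∈ Metric.sphere (0 : Vec n) 1 := by simp [norm_smul, ha]
    have := hmin hm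
    simp only [mem_ofPred_eq, h.smul_nonneg (inv_nonneg.2 (norm_nonneg a))] at this
    rw [le_inv_mul_iff₀ (norm_pos_iff.2 ha)] at this
    linarith

theorem isCompact_le (h : IsNrm N) (r : ℝ) : IsCompact {v | N v ≤ r} := by
  obtain ⟨c, hc, hl⟩ := h.exists_lower
  refine Metric.isCompact_of_isClosed_isBounded (isClosed_le h.continuous continuous_const) ?_
  refine (Metric.isBounded_closedBall (x := (0 : Vec n)) (r := r / c)).subset fun v hv => ?_
  rw [mem_closedBall_zero_iff, le_div_iff₀ hc]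
  have := hl v
  have hv' : N v ≤ r := hv
  linarith

/-- Directional convexity inequality. -/
theorem line_le (h : IsNrm N) (a v : Vec n) {t s : ℝ} (ht : 0 ≤ t) (hts : t ≤ s) (hs : 0 < s) :
    N (a + t • v) ≤ (1 - t / s) * N a + t / s * N (a + s • v) := by
  have e : a + t • v = (1 - t / s) • a + (t / s) • (a + s • v) := by
    rw [smul_add, smul_smul, div_mul_cancel₀ t hs.ne', sub_smul, one_smul]
    abel
  rw [e]
  refine (h.tri _ _).trans (le_of_eq ?_)
  rw [h.smul_nonneg (by rw [sub_nonneg, div_le_one hs]; exact hts),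
    h.smul_nonneg (div_nonneg ht hs.le)]

/-! ### The dual norm -/

theorem bddAbove_dual (h : IsNrm N) (q : Vec n) :
    BddAbove ((fun v => ⟪q, v⟫) '' {v | N v ≤ 1}) :=
  ((h.isCompact_le 1).image (by fun_prop)).bddAbove

theorem inner_le (h : IsNrm N) (q v : Vec n) : ⟪q, v⟫ ≤ dual N q * N v := by
  rcases eq_or_ne v 0 with rfl | hv
  · simp [h.map_zero]
  have hp := h.pos v hv
  have hm : (N v)⁻¹ • v ∈ {w | N w ≤ 1} := by
    simp [h.smul_nonneg (inv_nonneg.2 hp.le), hp.ne']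
  have := le_csSup (h.bddAbove_dual q) (mem_image_of_mem (fun w => ⟪q, w⟫) hm)
  simp only [inner_smul_right] at this
  rw [inv_mul_le_iff₀ hp] at this
  rw [mul_comm] at this
  exact this

theorem abs_inner_le (h : IsNrm N) (q v : Vec n) : |⟪q, v⟫| ≤ dual N q * N v := by
  refine abs_le.2 ⟨?_, h.inner_le q v⟩
  have := h.inner_le q (-v)
  rw [inner_neg_right, h.map_neg] at this
  linarith

theorem exists_attain (h : IsNrm N) (q : Vec n) : ∃ v, N v ≤ 1 ∧ ⟪q, v⟫ = dual N q := by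
  obtain ⟨v, hv, he⟩ := (h.isCompact_le 1).exists_sSup_image_eq
    ⟨0, by simp [h.map_zero]⟩ (f := fun v => ⟪q, v⟫) (by fun_prop)
  exact ⟨v, hv, he.symm⟩

theorem dual_le (h : IsNrm N) {q : Vec n} {t : ℝ} (ht : 0 ≤ t)
    (hq : ∀ v, ⟪q, v⟫ ≤ t * N v) : dual N q ≤ t := by
  obtain ⟨v, hv, he⟩ := h.exists_attain q
  rw [← he]
  exact (hq v).trans (mul_le_of_le_one_right ht hv)

theorem dual_nonneg (h : IsNrm N) (q : Vec n) : 0 ≤ dual N q :=
  le_csSup (h.bddAbove_dual q) ⟨0, by simp [h.map_zero], inner_zero_right q⟩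

theorem isNrm_dual (h : IsNrm N) : IsNrm (dual N) where
  tri a b := h.dual_le (add_nonneg (h.dual_nonneg a) (h.dual_nonneg b)) fun v => by
    rw [inner_add_left, add_mul]
    exact add_le_add (h.inner_le a v) (h.inner_le b v)
  smul c a := by
    have key : ∀ (c : ℝ) (a : Vec n), dual N (c • a) ≤ |c| * dual N a := fun c a =>
      h.dual_le (mul_nonneg (abs_nonneg _) (h.dual_nonneg a)) fun v => by
        rw [real_inner_smul_left, mul_assoc]
        calc c * ⟪a, v⟫ ≤ |c * ⟪a, v⟫| := le_abs_self _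
          _ = |c| * |⟪a, v⟫| := abs_mul _ _
          _ ≤ |c| * (dual N a * N v) :=
            mul_le_mul_of_nonneg_left (h.abs_inner_le a v) (abs_nonneg _)
    refine le_antisymm (key c a) ?_
    rcases eq_or_ne c 0 with rfl | hc
    · simpa using h.dual_nonneg ((0 : ℝ) • a)
    have := key c⁻¹ (c • a)
    rw [inv_smul_smul₀ hc, abs_inv, le_inv_mul_iff₀ (abs_pos.2 hc)] at this
    exact this
  pos a ha := by
    have h1 := h.inner_le a a
    have h2 : 0 < ⟪a, a⟫ := by rw [real_inner_self_eq_norm_sq]; positivity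
    by_contra hle
    have := mul_nonpos_of_nonpos_of_nonneg (not_lt.1 hle) (h.nonneg a)
    linarith

/-- Functionals on a subspace extend with the same bound. -/
theorem exists_extend (h : IsNrm N) (T : Submodule ℝ (Vec n)) (q : Vec n) {t : ℝ} (ht : 0 ≤ t)
    (hq : ∀ v ∈ T, ⟪q, v⟫ ≤ t * N v) :
    ∃ Q, (∀ v ∈ T, ⟪Q, v⟫ = ⟪q, v⟫) ∧ dual N Q ≤ t := by
  obtain ⟨g, hg1, hg2⟩ := exists_extension_of_le_sublinear
    ⟨T, ((innerSL ℝ q).toLinearMap).domRestrict T⟩ (fun v => t * N v)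
    (fun c hc v => by show t * N (c • v) = c * (t * N v); rw [h.smul_nonneg hc.le]; ring)
    (fun v w => by
      show t * N (v + w) ≤ t * N v + t * N w
      rw [← mul_add]; exact mul_le_mul_of_nonneg_left (h.tri v w) ht)
    (fun v => hq v.1 v.2)
  refine ⟨(InnerProductSpace.toDual ℝ (Vec n)).symm (LinearMap.toContinuousLinearMap g),
    fun v hv => ?_, h.dual_le ht fun v => ?_⟩
  · rw [InnerProductSpace.toDual_symm_apply]
    exact hg1 ⟨v, hv⟩
  · rw [InnerProductSpace.toDual_symm_apply]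
    exact hg2 v

theorem exists_norming (h : IsNrm N) (v : Vec n) :
    ∃ q, dual N q ≤ 1 ∧ ⟪q, v⟫ = N v := by
  rcases eq_or_ne v 0 with rfl | hv
  · exact ⟨0, by simp [h.isNrm_dual.map_zero], by simp [h.map_zero]⟩
  have h2 : ⟪v, v⟫ ≠ 0 := by simpa using hv
  obtain ⟨Q, hQ1, hQ2⟩ := h.exists_extend (ℝ ∙ v) ((N v / ⟪v, v⟫) • v) zero_le_one fun w hw => by
    obtain ⟨c, rfl⟩ := Submodule.mem_span_singleton.1 hw
    rw [real_inner_smul_left, real_inner_smul_right, h.smul, one_mul]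
    calc N v / ⟪v, v⟫ * (c * ⟪v, v⟫) = c * N v := by field_simp
      _ ≤ |c| * N v := mul_le_mul_of_nonneg_right (le_abs_self c) (h.nonneg v)
  refine ⟨Q, hQ2, ?_⟩
  rw [hQ1 v (Submodule.mem_span_singleton_self v), real_inner_smul_left, div_mul_cancel₀ _ h2]

/-! ### Gradients -/

theorem not_diff_zero (h : IsNrm N) (hn : 0 < n) : ¬ DifferentiableAt ℝ N 0 := by
  intro hd
  set e : Vec n := EuclideanSpace.single ⟨0, hn⟩ (1 : ℝ) with he
  have he0 : e ≠ 0 := by simp [he]
  have h1 : DifferentiableAt ℝ (fun t : ℝ => N (t • e)) 0 := by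
    have : DifferentiableAt ℝ N ((0 : ℝ) • e) := by simpa using hd
    exact this.comp 0 (by fun_prop)
  have h2 : (fun t : ℝ => N (t • e)) = fun t => N e * |t| := by
    funext t; rw [h.smul, mul_comm]
  rw [h2] at h1
  have h3 := h1.const_mul (N e)⁻¹
  simp only [← mul_assoc, inv_mul_cancel₀ (h.pos e he0).ne', one_mul] at h3
  exact not_differentiableAt_abs_zero h3

theorem gr_le (h : IsNrm N) {z : Vec n} (hz : DifferentiableAt ℝ N z) (v : Vec n) :
    ⟪gr N z, v⟫ ≤ N (z + v) - N z := by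
  rw [inner_gr]
  have hline : HasDerivAt (fun t : ℝ => z + t • v) v 0 := by
    simpa using ((hasDerivAt_id (0 : ℝ)).smul_const v).const_add z
  have hd : HasDerivAt (fun t : ℝ => N (z + t • v)) (fderiv ℝ N z v) 0 := by
    have : HasFDerivAt N (fderiv ℝ N z) (z + (0 : ℝ) • v) := by simpa using hz.hasFDerivAt
    exact this.comp_hasDerivAt 0 hline
  refine le_of_tendsto hd.tendsto_slope_zero_right ?_
  filter_upwards [Ioo_mem_nhdsGT one_pos] with t ht
  simp only [zero_add, zero_smul, add_zero, smul_eq_mul]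
  rw [inv_mul_le_iff₀ ht.1]
  have := h.line_le z v ht.1.le ht.2.le one_pos
  rw [one_smul, div_one] at this
  linarith

theorem gr_self (h : IsNrm N) {z : Vec n} (hz : DifferentiableAt ℝ N z) : ⟪gr N z, z⟫ = N z := by
  have h1 := h.gr_le hz z
  have h2 := h.gr_le hz (-z)
  rw [← two_smul ℝ z, h.smul, abs_two] at h1
  rw [inner_neg_right, add_neg_cancel, h.map_zero] at h2
  linarith

theorem gr_bound (h : IsNrm N) {z : Vec n} (hz : DifferentiableAt ℝ N z) (v : Vec n) :
    ⟪gr N z, v⟫ ≤ N v := by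
  have := h.gr_le hz v
  linarith [h.tri z v]

theorem dual_gr_le (h : IsNrm N) {z : Vec n} (hz : DifferentiableAt ℝ N z) :
    dual N (gr N z) ≤ 1 :=
  h.dual_le zero_le_one fun v => by rw [one_mul]; exact h.gr_bound hz v

/-- The norming functional at a point of differentiability is unique. -/
theorem gr_unique (h : IsNrm N) {z g : Vec n} (hz : DifferentiableAt ℝ N z)
    (hg : ∀ v, ⟪g, v⟫ ≤ N v) (hgz : ⟪g, z⟫ = N z) : g = gr N z := by
  have hmin : IsLocalMin (fun v => N v - ⟪g, v⟫) z := Filter.Eventually.of_forall fun v => by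
    simp only [hgz, sub_self]
    linarith [hg v]
  have h1 : HasFDerivAt (fun v => N v - ⟪g, v⟫) (fderiv ℝ N z - innerSL ℝ g) z :=
    hz.hasFDerivAt.sub ((innerSL ℝ g).hasFDerivAt)
  have h2 := sub_eq_zero.1 (hmin.hasFDerivAt_eq_zero h1)
  refine ext_inner_right ℝ fun v => ?_
  rw [inner_gr, h2]
  rfl

theorem diff_smul (h : IsNrm N) {z : Vec n} (hz : DifferentiableAt ℝ N z) {c : ℝ} (hc : 0 < c) :
    DifferentiableAt ℝ N (c • z) ∧ gr N (c • z) = gr N z := by
  have e : N = fun v => c * N (c⁻¹ • v) := by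
    funext v
    rw [h.smul_nonneg (inv_nonneg.2 hc.le), mul_inv_cancel_left₀ hc.ne']
  have hd : DifferentiableAt ℝ N (c • z) := by
    rw [e]
    refine DifferentiableAt.const_mul ?_ c
    have : DifferentiableAt ℝ N (c⁻¹ • (c • z)) := by rwa [inv_smul_smul₀ hc.ne']
    exact this.comp (c • z) (by fun_prop)
  refine ⟨hd, (h.gr_unique hd (h.gr_bound hz) ?_).symm⟩
  rw [real_inner_smul_right, h.gr_self hz, h.smul_nonneg hc.le]

theorem gr_dual_norm (h : IsNrm N) {q : Vec n} (hq : DifferentiableAt ℝ (dual N) q) :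
    N (gr (dual N) q) ≤ 1 := by
  obtain ⟨v, hv, he⟩ := h.exists_attain q
  have : v = gr (dual N) q := by
    refine h.isNrm_dual.gr_unique hq (fun w => ?_) (by rw [real_inner_comm, he])
    rw [real_inner_comm]
    exact (h.inner_le w v).trans (mul_le_of_le_one_right (h.dual_nonneg w) hv)
  rwa [← this]

theorem gr_dual_norm_eq (h : IsNrm N) {q : Vec n} (hq : DifferentiableAt ℝ (dual N) q)
    (hq0 : q ≠ 0) : N (gr (dual N) q) = 1 := by
  refine le_antisymm (h.gr_dual_norm hq) ?_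
  have h1 := h.isNrm_dual.gr_self hq
  rw [real_inner_comm] at h1
  have h2 := h.inner_le q (gr (dual N) q)
  rw [h1] at h2
  exact le_of_mul_le_mul_left (by linarith) (h.isNrm_dual.pos q hq0)

theorem ae_diff (h : IsNrm N) : ∀ᵐ z : Vec n, DifferentiableAt ℝ N z := by
  obtain ⟨C, hC⟩ := h.exists_lipschitz
  exact hC.ae_differentiableAt

theorem volume_lt_ne_top (h : IsNrm N) (r : ℝ) : volume {v : Vec n | N v < r} ≠ ⊤ :=
  ((measure_mono fun _ (hv : N _ < r) => show N _ ≤ r from hv.le).trans_lt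
    (h.isCompact_le r).measure_lt_top).ne

theorem volume_lt_pos (h : IsNrm N) {r : ℝ} (hr : 0 < r) : 0 < volume {v : Vec n | N v < r} :=
  (isOpen_lt h.continuous continuous_const).measure_pos volume ⟨0, by simpa [h.map_zero] using hr⟩

end IsNrm

end Vale.Agent.P084
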