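import Mathlib
import Vale.Agent.P084.Nrm

/-!
Integration along parallel lines and the projection formula for convex bodies.
-/

open MeasureTheory Set Filter
open scoped ENNReal NNReal RealInnerProductSpace Topology

namespace Vale.Agent.P084

variable {n : ℕ}

/-- The upper end of the chord of `{N < r}` on the line through `w` in direction `a`. -/
noncomputable def tp (N : Vec n → ℝ) (r : ℝ) (w a : Vec n) : ℝ :=
  sSup {t : ℝ | N (w + t • a) < r}

/-- The line through `w` in direction `a` meets `{N < r}`. -/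
def Meets (N : Vec n → ℝ) (r : ℝ) (w a : Vec n) : Prop :=
  ∃ t : ℝ, N (w + t • a) < r

/-- The upper end point. -/
noncomputable def top (N : Vec n → ℝ) (r : ℝ) (w a : Vec n) : Vec n :=
  w + tp N r w a • a

/-- A slab transversal to the direction paired with `l`. -/
def slab (l : Vec n) (c : ℝ) : Set (Vec n) :=
  {w | ⟪l, w⟫ ∈ Icc 0 c}

theorem measurableSet_slab (l : Vec n) (c : ℝ) : MeasurableSet (slab l c) :=
  (measurableSet_Icc.preimage (by fun_prop : Measurable fun w : Vec n => ⟪l, w⟫))

namespace IsNrm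

variable {N : Vec n → ℝ}

theorem bdd_line (h : IsNrm N) {a : Vec n} (ha : a ≠ 0) (r : ℝ) (w : Vec n) :
    BddAbove {t : ℝ | N (w + t • a) < r} := by
  refine ⟨(|r| + N w) / N a, fun t ht => ?_⟩
  rw [le_div_iff₀ (h.pos a ha)]
  have h1 := h.sub_le (t • a) (-w)
  rw [sub_neg_eq_add, add_comm (t • a) w, h.map_neg, h.smul] at h1
  have ht' : N (w + t • a) < r := ht
  have h2 := mul_le_mul_of_nonneg_right (le_abs_self t) (h.nonneg a)
  linarith [le_abs_self r]

theorem lt_tp (h : IsNrm N) {a : Vec n} (ha : a ≠ 0) {r t : ℝ} {w : Vec n}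
    (ht : N (w + t • a) < r) : t < tp N r w a := by
  have hopen : IsOpen {t : ℝ | N (w + t • a) < r} :=
    isOpen_lt (h.continuous.comp (by fun_prop)) continuous_const
  obtain ⟨ε, hε, hball⟩ := Metric.isOpen_iff.1 hopen t ht
  have : t + ε / 2 ≤ tp N r w a := le_csSup (h.bdd_line ha r w)
    (hball (by rw [Metric.mem_ball, Real.dist_eq, add_sub_cancel_left, abs_of_pos (half_pos hε)]; linarith))
  linarith

theorem tp_spec (h : IsNrm N) {a : Vec n} (ha : a ≠ 0) {r : ℝ} {w : Vec n}
    (hm : Meets N r w a) : N (top N r w a) = r := by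
  obtain ⟨t, ht⟩ := hm
  have hc : Continuous fun t : ℝ => N (w + t • a) := h.continuous.comp (by fun_prop)
  refine le_antisymm ?_ (not_lt.1 fun hlt => lt_irrefl _ (h.lt_tp ha hlt))
  obtain ⟨u, -, hu, humem⟩ := exists_seq_tendsto_sSup (S := {t : ℝ | N (w + t • a) < r})
    ⟨t, ht⟩ (h.bdd_line ha r w)
  exact le_of_tendsto' ((hc.tendsto _).comp hu) fun k => (humem k).le

theorem tp_unique (h : IsNrm N) {a : Vec n} (ha : a ≠ 0) {r t t' : ℝ} {w : Vec n} (htt : t' < t)
    (ht' : N (w + t' • a) < r) (ht : N (w + t • a) = r) : tp N r w a = t := by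
  refine le_antisymm (csSup_le ⟨t', ht'⟩ fun s hs => ?_) (not_lt.1 fun hlt => ?_)
  · by_contra hcon
    push Not at hcon
    have h1 := h.line_le (w + t' • a) a (t := t - t') (s := s - t') (by linarith) (by linarith)
      (by linarith)
    rw [add_assoc, ← add_smul, add_assoc, ← add_smul, add_sub_cancel, add_sub_cancel, ht] at h1
    have hs' : N (w + s • a) < r := hs
    have hθ : 0 < (t - t') / (s - t') := div_pos (by linarith) (by linarith)
    have hθ1 : 0 ≤ 1 - (t - t') / (s - t') := by
      rw [sub_nonneg, div_le_one (by linarith)]; linarith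
    have := mul_le_mul_of_nonneg_left ht'.le hθ1
    have := mul_lt_mul_of_pos_left hs' hθ
    linarith
  · set T := tp N r w a
    obtain ⟨s, hs, hTs⟩ := exists_lt_of_lt_csSup (s := {t : ℝ | N (w + t • a) < r}) ⟨t', ht'⟩
      (show t' < sSup _ from h.lt_tp ha ht')
    have h1 := h.line_le (w + t' • a) a (t := T - t') (s := t - t') (by linarith [h.lt_tp ha ht'])
      (by linarith) (by linarith)
    rw [add_assoc, ← add_smul, add_assoc, ← add_smul, add_sub_cancel, add_sub_cancel, ht] at h1
    have hT : N (w + T • a) = r := h.tp_spec ha ⟨t', ht'⟩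
    rw [hT] at h1
    have hθ : (T - t') / (t - t') < 1 := by rw [div_lt_one (by linarith)]; linarith
    have := mul_lt_mul_of_pos_left ht' (sub_pos.2 hθ)
    linarith

theorem meets_scale (h : IsNrm N) {r : ℝ} (hr : 0 < r) (w a : Vec n) :
    Meets N r w a ↔ Meets N 1 (r⁻¹ • w) a := by
  have key : ∀ t : ℝ, N (r⁻¹ • w + t • a) = r⁻¹ * N (w + (r * t) • a) := fun t => by
    rw [← h.smul_nonneg (inv_nonneg.2 hr.le), smul_add, smul_smul, inv_mul_cancel_left₀ hr.ne']
  constructor
  · rintro ⟨t, ht⟩
    refine ⟨r⁻¹ * t, ?_⟩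
    rw [key, mul_inv_cancel_left₀ hr.ne', inv_mul_lt_iff₀ hr, mul_one]
    exact ht
  · rintro ⟨t, ht⟩
    rw [key, inv_mul_lt_iff₀ hr, mul_one] at ht
    exact ⟨_, ht⟩

theorem top_scale (h : IsNrm N) {r : ℝ} (hr : 0 < r) {w a : Vec n} (ha : a ≠ 0)
    (hm : Meets N r w a) : top N r w a = r • top N 1 (r⁻¹ • w) a := by
  have hm1 := (h.meets_scale hr w a).1 hm
  have hs := h.tp_spec ha hm1
  obtain ⟨t', ht'⟩ := hm1
  have hlt := h.lt_tp ha ht'
  have key : ∀ t : ℝ, N (w + (r * t) • a) = r * N (r⁻¹ • w + t • a) := fun t => by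
    rw [← h.smul_nonneg hr.le, smul_add, smul_inv_smul₀ hr.ne', smul_smul]
  have : tp N r w a = r * tp N 1 (r⁻¹ • w) a :=
    h.tp_unique ha (mul_lt_mul_of_pos_left hlt hr)
      (by rw [key]; exact (mul_lt_iff_lt_one_right hr).2 ht')
      (by rw [key]; exact (by rw [show N (r⁻¹ • w + tp N 1 (r⁻¹ • w) a • a) = 1 from hs, mul_one]))
  simp only [top, this, smul_add, smul_inv_smul₀ hr.ne', smul_smul]

theorem meets_shift (w a : Vec n) (r s : ℝ) : Meets N r (w + s • a) a ↔ Meets N r w a := by
  constructor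
  · rintro ⟨t, ht⟩
    exact ⟨s + t, by rwa [add_smul, ← add_assoc]⟩
  · rintro ⟨t, ht⟩
    exact ⟨t - s, by rwa [add_assoc, ← add_smul, add_sub_cancel]⟩

theorem top_shift (h : IsNrm N) {w a : Vec n} (ha : a ≠ 0) {r : ℝ} (s : ℝ)
    (hm : Meets N r w a) : top N r (w + s • a) a = top N r w a := by
  obtain ⟨t', ht'⟩ := hm
  have key : ∀ t : ℝ, N (w + s • a + (t - s) • a) = N (w + t • a) := fun t => by
    rw [add_assoc, ← add_smul, add_sub_cancel]
  have : tp N r (w + s • a) a = tp N r w a - s :=
    h.tp_unique ha (sub_lt_sub_right (h.lt_tp ha ht') s) (by rwa [key])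
      (by rw [key]; exact h.tp_spec ha ⟨t', ht'⟩)
  simp only [top, this]
  rw [add_assoc, ← add_smul, add_sub_cancel]

theorem isOpen_meets (h : IsNrm N) :
    IsOpen {p : ℝ × Vec n × Vec n | Meets N p.1 p.2.1 p.2.2} := by
  simp only [Meets, ofPred_exists]
  exact isOpen_iUnion fun t => isOpen_lt (h.continuous.comp (by fun_prop)) continuous_fst

theorem measurable_tp (h : IsNrm N) :
    Measurable fun p : ℝ × Vec n × Vec n => tp N p.1 p.2.1 p.2.2 := by
  refine measurable_of_Ioi fun c => ?_
  have e : (fun p : ℝ × Vec n × Vec n => tp N p.1 p.2.1 p.2.2) ⁻¹' Ioi c =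
      ({p | p.2.2 ≠ 0} ∩ ⋃ q : ℚ, ⋃ (_ : c < q), {p | N (p.2.1 + (q : ℝ) • p.2.2) < p.1}) ∪
      ({p | p.2.2 = 0 ∨ ¬ Meets N p.1 p.2.1 p.2.2} ∩ {_p | c < 0}) := by
    ext ⟨r, w, a⟩
    simp only [mem_preimage, mem_Ioi, mem_union, mem_inter_iff, mem_ofPred_eq, mem_iUnion,
      exists_prop]
    rcases eq_or_ne a 0 with rfl | ha
    · have : tp N r w (0 : Vec n) = 0 := by
        unfold tp
        by_cases hw : N w < r
        · rw [show {t : ℝ | N (w + t • (0 : Vec n)) < r} = univ by ext t; simp [hw]]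
          exact Real.sSup_univ
        · rw [show {t : ℝ | N (w + t • (0 : Vec n)) < r} = ∅ by ext t; simp [hw]]
          exact Real.sSup_empty
      simp [this]
    by_cases hm : Meets N r w a
    · simp only [ne_eq, ha, not_false_eq_true, true_and, false_or, not_true_eq_false, hm,
        false_and, or_false]
      constructor
      · intro hc
        obtain ⟨t, ht⟩ := hm
        obtain ⟨s, hs, hcs⟩ := exists_lt_of_lt_csSup ⟨t, ht⟩ hc
        have hopen : IsOpen {t : ℝ | N (w + t • a) < r} :=
          isOpen_lt (h.continuous.comp (by fun_prop)) continuous_const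
        obtain ⟨ε, hε, hball⟩ := Metric.isOpen_iff.1 hopen s hs
        obtain ⟨q, hq1, hq2⟩ := exists_rat_btwn (show s < s + ε by linarith)
        refine ⟨q, by linarith, hball ?_⟩
        rw [Metric.mem_ball, Real.dist_eq, abs_of_pos (by linarith)]
        linarith
      · rintro ⟨q, hq, hN⟩
        exact hq.trans (h.lt_tp ha hN)
    · have : tp N r w a = 0 := by
        unfold tp
        rw [show {t : ℝ | N (w + t • a) < r} = ∅ by
          ext t; simpa using not_exists.1 hm t]
        exact Real.sSup_empty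
      have hno : ¬ ∃ q : ℚ, c < q ∧ N (w + (q : ℝ) • a) < r := fun ⟨q, _, hq⟩ => hm ⟨q, hq⟩
      simp [this, hm, hno]
  rw [e]
  refine MeasurableSet.union ?_ ?_
  · refine ((isOpen_ne_fun (by fun_prop) continuous_const).inter ?_).measurableSet
    exact isOpen_iUnion fun q => isOpen_iUnion fun _ =>
      isOpen_lt (h.continuous.comp (by fun_prop)) continuous_fst
  · refine MeasurableSet.inter ?_ (MeasurableSet.const _)
    exact ((isClosed_eq (by fun_prop) continuous_const).measurableSet).union
      h.isOpen_meets.measurableSet.compl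

theorem measurable_top (h : IsNrm N) :
    Measurable fun p : ℝ × Vec n × Vec n => top N p.1 p.2.1 p.2.2 :=
  (measurable_fst.comp measurable_snd).add (h.measurable_tp.smul
    (measurable_snd.comp measurable_snd))

theorem measurableSet_meets (h : IsNrm N) (r : ℝ) (a : Vec n) :
    MeasurableSet {w | Meets N r w a} := by
  have h1 := h.isOpen_meets.measurableSet
  exact h1.preimage (f := fun w : Vec n => (r, w, a)) (by fun_prop)

end IsNrm

/-- Integration along lines. -/
theorem lintegral_lines (l a : Vec n) (hla : ⟪l, a⟫ = 1) {φ : Vec n → ℝ≥0∞} (hφ : Measurable φ) :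
    ∫⁻ z, φ z = ∫⁻ w in slab l 1, ∫⁻ t : ℝ, φ (w + t • a) := by
  have hsl := measurableSet_slab l 1
  have hind : Measurable ((slab l 1).indicator (fun _ => (1 : ℝ≥0∞))) :=
    measurable_const.indicator hsl
  have e : ∫⁻ w in slab l 1, ∫⁻ t : ℝ, φ (w + t • a)
      = ∫⁻ w, ∫⁻ t : ℝ, (slab l 1).indicator (fun _ => 1) w * φ (w + t • a) := by
    rw [← lintegral_indicator hsl]
    refine lintegral_congr fun w => ?_
    by_cases hw : w ∈ slab l 1
    · simp [Set.indicator_of_mem hw]
    · simp [Set.indicator_of_notMem hw]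
  rw [e, lintegral_lintegral_swap (Measurable.aemeasurable (by fun_prop))]
  have e2 : ∀ t : ℝ, ∫⁻ w, (slab l 1).indicator (fun _ => (1 : ℝ≥0∞)) w * φ (w + t • a)
      = ∫⁻ z, (slab l 1).indicator (fun _ => (1 : ℝ≥0∞)) (z - t • a) * φ z := by
    intro t
    rw [← lintegral_add_right_eq_self
      (fun z => (slab l 1).indicator (fun _ => (1 : ℝ≥0∞)) (z - t • a) * φ z) (t • a)]
    simp only [add_sub_cancel_right]
  simp only [e2]
  rw [lintegral_lintegral_swap (Measurable.aemeasurable (by fun_prop))]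
  refine lintegral_congr fun z => ?_
  rw [lintegral_mul_const _ (by fun_prop)]
  have : ∀ t : ℝ, (slab l 1).indicator (fun _ => (1 : ℝ≥0∞)) (z - t • a)
      = (Icc (⟪l, z⟫ - 1) ⟪l, z⟫).indicator (fun _ => (1 : ℝ≥0∞)) t := by
    intro t
    have : z - t • a ∈ slab l 1 ↔ t ∈ Icc (⟪l, z⟫ - 1) ⟪l, z⟫ := by
      simp only [slab, mem_ofPred_eq, inner_sub_right, real_inner_smul_right, hla, mem_Icc]
      constructor <;> rintro ⟨h1, h2⟩ <;> constructor <;> linarith
    by_cases ht : t ∈ Icc (⟪l, z⟫ - 1) ⟪l, z⟫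
    · rw [Set.indicator_of_mem ht, Set.indicator_of_mem (this.2 ht)]
    · rw [Set.indicator_of_notMem ht, Set.indicator_of_notMem fun h => ht (this.1 h)]
  simp only [this]
  rw [lintegral_indicator_const measurableSet_Icc, Real.volume_Icc]
  simp

/-- Slabs of other widths. -/
theorem lintegral_slab_width (l a : Vec n) (hla : ⟪l, a⟫ = 1) {F : Vec n → ℝ≥0∞}
    (hF : Measurable F) (hinv : ∀ w (t : ℝ), F (w + t • a) = F w) {c : ℝ} (hc : 0 ≤ c) :
    ∫⁻ w in slab l c, F w = ENNReal.ofReal c * ∫⁻ w in slab l 1, F w := by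
  rw [← lintegral_indicator (measurableSet_slab l c),
    lintegral_lines l a hla (hF.indicator (measurableSet_slab l c)), ← lintegral_const_mul _ hF]
  refine lintegral_congr fun w => ?_
  have e : ∀ t : ℝ, (slab l c).indicator F (w + t • a)
      = (Icc (-⟪l, w⟫) (c - ⟪l, w⟫)).indicator (fun _ => F w) t := by
    intro t
    have : w + t • a ∈ slab l c ↔ t ∈ Icc (-⟪l, w⟫) (c - ⟪l, w⟫) := by
      simp only [slab, mem_ofPred_eq, inner_add_right, real_inner_smul_right, hla, mem_Icc]
      constructor <;> rintro ⟨h1, h2⟩ <;> constructor <;> linarith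
    by_cases ht : t ∈ Icc (-⟪l, w⟫) (c - ⟪l, w⟫)
    · rw [Set.indicator_of_mem ht, Set.indicator_of_mem (this.2 ht), hinv]
    · rw [Set.indicator_of_notMem ht, Set.indicator_of_notMem fun h => ht (this.1 h)]
  simp only [e]
  rw [lintegral_indicator_const measurableSet_Icc, Real.volume_Icc, mul_comm]
  simp

/-- A null set meets almost every line in a null set. -/
theorem ae_lines (l a : Vec n) (hla : ⟪l, a⟫ = 1) {P : Vec n → Prop}
    (hP : MeasurableSet {z | P z}) (h : ∀ᵐ z : Vec n, P z) :
    ∀ᵐ w : Vec n ∂volume.restrict (slab l 1), ∀ᵐ t : ℝ, P (w + t • a) := by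
  have hm : Measurable fun z : Vec n => {z | P z}ᶜ.indicator (fun _ => (1 : ℝ≥0∞)) z :=
    measurable_const.indicator hP.compl
  have h0 : ∫⁻ z, {z | P z}ᶜ.indicator (fun _ => (1 : ℝ≥0∞)) z = 0 := by
    rw [lintegral_indicator_const hP.compl, show volume {z | P z}ᶜ = 0 from ae_iff.1 h, mul_zero]
  rw [lintegral_lines l a hla hm, lintegral_eq_zero_iff (by fun_prop)] at h0
  filter_upwards [h0] with w hw
  rw [Pi.zero_apply, lintegral_eq_zero_iff (by fun_prop)] at hw
  filter_upwards [hw] with t ht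
  by_contra hP'
  rw [Pi.zero_apply, Set.indicator_of_mem (show w + t • a ∈ {z | P z}ᶜ from hP')] at ht
  exact one_ne_zero ht

/-- Lipschitz images of null subsets of the line are null. -/
theorem image_null {f : ℝ → ℝ} {C : ℝ≥0} (hf : LipschitzWith C f) {s : Set ℝ}
    (hs : volume s = 0) : volume (f '' s) = 0 := by
  rw [← hausdorffMeasure_real] at hs ⊢
  exact le_antisymm ((hf.hausdorffMeasure_image_le zero_le_one s).trans_eq (by rw [hs, mul_zero]))
    zero_le'

theorem lintegral_pow_Ioo (m : ℕ) :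
    ∫⁻ r in Ioo (0 : ℝ) 1, ENNReal.ofReal (r ^ m) = ENNReal.ofReal (1 / ((m : ℝ) + 1)) := by
  rw [← ofReal_integral_eq_lintegral_ofReal]
  · rw [← integral_Ioc_eq_integral_Ioo, ← intervalIntegral.integral_of_le zero_le_one, integral_pow]
    simp
  · exact ((continuous_pow m).continuousOn.integrableOn_compact isCompact_Icc).mono_set
      Ioo_subset_Icc_self
  · filter_upwards [ae_restrict_mem measurableSet_Ioo] with r hr
    exact pow_nonneg hr.1.le m

namespace IsNrm

variable {N : Vec n → ℝ}

/-- The part of `N`-increase along one line. -/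
theorem line_top (h : IsNrm N) (hn : 0 < n) {a : Vec n} (ha : a ≠ 0) {w : Vec n}
    (hw : ∀ᵐ t : ℝ, DifferentiableAt ℝ N (w + t • a)) {g : Vec n → ℝ≥0∞} :
    ∫⁻ t : ℝ, {z | N z < 1}.indicator (fun z => g z * ENNReal.ofReal ⟪gr N z, a⟫) (w + t • a)
      = ∫⁻ r in Ioo (0 : ℝ) 1, {r : ℝ | Meets N r w a}.indicator (fun r => g (top N r w a)) r := by
  set s : Set ℝ := {t | N (w + t • a) < 1 ∧ DifferentiableAt ℝ N (w + t • a) ∧
    0 < ⟪gr N (w + t • a), a⟫} with hs
  have hline : Measurable fun t : ℝ => w + t • a := by fun_prop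
  have hsm0 : MeasurableSet ({z : Vec n | N z < 1} ∩ ({z | DifferentiableAt ℝ N z} ∩
      {z | 0 < ⟪gr N z, a⟫})) :=
    (isOpen_lt h.continuous continuous_const).measurableSet.inter
      ((measurableSet_of_differentiableAt ℝ N).inter
        (measurableSet_lt measurable_const (measurable_gr N).inner_const))
  have hsm : MeasurableSet s := hsm0.preimage hline
  set φ : ℝ → ℝ := fun t => N (w + t • a) with hφ
  have hderiv : ∀ t, DifferentiableAt ℝ N (w + t • a) →
      HasDerivAt φ ⟪gr N (w + t • a), a⟫ t := by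
    intro t ht
    rw [inner_gr]
    exact ht.hasFDerivAt.comp_hasDerivAt t
      (by simpa using ((hasDerivAt_id t).smul_const a).const_add w)
  have hstrict : ∀ t ∈ s, ∀ t', t < t' → φ t < φ t' := by
    rintro t ⟨-, hd, hpos⟩ t' htt
    have := h.gr_le hd ((t' - t) • a)
    rw [real_inner_smul_right, add_assoc, ← add_smul, add_sub_cancel] at this
    have := mul_pos (sub_pos.2 htt) hpos
    simp only [hφ]; linarith
  have hinj : InjOn φ s := by
    intro t ht t' ht' he
    by_contra hne
    rcases lt_or_gt_of_ne hne with hlt | hlt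
    · exact absurd he (hstrict t ht t' hlt).ne
    · exact absurd he (hstrict t' ht' t hlt).ne'
  have htop : ∀ t ∈ s, Meets N (φ t) w a ∧ top N (φ t) w a = w + t • a ∧ 0 < φ t := by
    rintro t ⟨hlt, hd, hpos⟩
    have hev : ∀ᶠ t' in 𝓝[<] t, φ t' < φ t := by
      have hh := (hderiv t hd).tendsto_slope_zero_left
      have hh' := hh.eventually (eventually_gt_nhds hpos)
      have hmap : Tendsto (fun t' => t' - t) (𝓝[<] t) (𝓝[<] 0) := by
        refine tendsto_nhdsWithin_iff.2 ⟨?_, ?_⟩
        · exact tendsto_nhdsWithin_of_tendsto_nhds ((continuous_sub_right t).tendsto' t 0 (sub_self t))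
        · filter_upwards [self_mem_nhdsWithin] with t' ht'
          exact sub_neg.2 (mem_Iio.1 ht')
      filter_upwards [hmap.eventually hh', self_mem_nhdsWithin] with t' h1 ht'
      rw [add_sub_cancel, smul_eq_mul] at h1
      by_contra hcon
      have hneg : (t' - t)⁻¹ < 0 := inv_lt_zero.2 (sub_neg.2 ht')
      have := mul_nonpos_of_nonpos_of_nonneg hneg.le (sub_nonneg.2 (not_lt.1 hcon))
      linarith
    obtain ⟨t', h1, h2⟩ := (hev.and self_mem_nhdsWithin).exists
    refine ⟨⟨t', h1⟩, ?_, (h.nonneg _).trans_lt h1⟩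
    rw [top, h.tp_unique ha h2 h1 rfl]
  have himg : (φ '' s : Set ℝ) =ᵐ[volume]
      (Ioo (0 : ℝ) 1 ∩ {r | Meets N r w a} : Set ℝ) := by
    obtain ⟨C, hC⟩ := h.exists_lipschitz
    obtain ⟨K, hK⟩ : ∃ K, LipschitzWith K φ :=
      ⟨C * ‖a‖₊, LipschitzWith.of_dist_le_mul fun x y => by
        refine (hC.dist_le_mul _ _).trans (le_of_eq ?_)
        rw [dist_add_left, dist_eq_norm, ← sub_smul, norm_smul, NNReal.coe_mul, coe_nnnorm,
          Real.dist_eq, ← Real.norm_eq_abs]
        ring⟩
    have hnull := image_null hK (ae_iff.1 hw)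
    refine Filter.EventuallyEq.symm ?_
    refine eventuallyEq_set.2 ((measure_eq_zero_iff_ae_notMem.1 hnull).mono fun r hr => ⟨?_, ?_⟩)
    · rintro ⟨hr01, hm⟩
      have hsp : φ (tp N r w a) = r := h.tp_spec ha hm
      by_cases hd : DifferentiableAt ℝ N (w + tp N r w a • a)
      · refine ⟨tp N r w a, ⟨hsp.trans_lt hr01.2, hd, ?_⟩, hsp⟩
        obtain ⟨t', ht'⟩ := hm
        have hlt := h.lt_tp ha ht'
        have := h.gr_le hd ((t' - tp N r w a) • a)
        rw [real_inner_smul_right, add_assoc, ← add_smul, add_sub_cancel] at this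
        by_contra hle
        have := mul_nonneg_of_nonpos_of_nonpos (sub_nonpos.2 hlt.le) (not_lt.1 hle)
        have hsp' : N (w + tp N r w a • a) = r := hsp
        linarith
      · exact absurd ⟨tp N r w a, hd, hsp⟩ hr
    · rintro ⟨t, ht, rfl⟩
      exact ⟨⟨(htop t ht).2.2, ht.1⟩, (htop t ht).1⟩
  calc ∫⁻ t : ℝ, {z | N z < 1}.indicator (fun z => g z * ENNReal.ofReal ⟪gr N z, a⟫) (w + t • a)
      = ∫⁻ t in s, ENNReal.ofReal |⟪gr N (w + t • a), a⟫| *
          (fun r => g (top N r w a)) (φ t) := by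
        rw [← lintegral_indicator hsm]
        refine lintegral_congr fun t => ?_
        by_cases hts : t ∈ s
        · rw [Set.indicator_of_mem hts, Set.indicator_of_mem (show w + t • a ∈ {z | N z < 1} from
            hts.1)]
          show _ = _ * g (top N (φ t) w a)
          rw [(htop t hts).2.1, abs_of_pos hts.2.2, mul_comm]
        · rw [Set.indicator_of_notMem hts]
          by_cases h1 : N (w + t • a) < 1
          · rw [Set.indicator_of_mem (show w + t • a ∈ {z | N z < 1} from h1)]
            have : ⟪gr N (w + t • a), a⟫ ≤ 0 := by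
              by_cases hd : DifferentiableAt ℝ N (w + t • a)
              · exact not_lt.1 fun hpos => hts ⟨h1, hd, hpos⟩
              · simp [inner_gr, fderiv_zero_of_not_differentiableAt hd]
            rw [ENNReal.ofReal_of_nonpos this, mul_zero]
          · exact Set.indicator_of_notMem (show w + t • a ∉ {z | N z < 1} from h1) _
    _ = ∫⁻ r in φ '' s, g (top N r w a) :=
        (lintegral_image_eq_lintegral_abs_deriv_mul hsm
          (fun t ht => (hderiv t ht.2.1).hasDerivWithinAt) hinj (fun r => g (top N r w a))).symm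
    _ = ∫⁻ r in Ioo (0 : ℝ) 1 ∩ {r | Meets N r w a}, g (top N r w a) := setLIntegral_congr himg
    _ = _ := by
        have hm : MeasurableSet {r : ℝ | Meets N r w a} :=
          h.isOpen_meets.measurableSet.preimage (f := fun r : ℝ => (r, w, a)) (by fun_prop)
        rw [setLIntegral_indicator hm, inter_comm]

/-- The projection formula. -/
theorem top_formula (h : IsNrm N) (hn : 0 < n) {l a : Vec n} (hla : ⟪l, a⟫ = 1)
    {g : Vec n → ℝ≥0∞} (hg : Measurable g) (hg0 : ∀ c : ℝ, 0 < c → ∀ z, g (c • z) = g z) :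
    (n : ℝ≥0∞) * ∫⁻ z in {z | N z < 1}, g z * ENNReal.ofReal ⟪gr N z, a⟫
      = ∫⁻ w in slab l 1, {w | Meets N 1 w a}.indicator (fun w => g (top N 1 w a)) w := by
  have ha : a ≠ 0 := by rintro rfl; simp at hla
  have hopen : MeasurableSet {z : Vec n | N z < 1} :=
    (isOpen_lt h.continuous continuous_const).measurableSet
  have hgm : Measurable fun z : Vec n =>
      {z | N z < 1}.indicator (fun z => g z * ENNReal.ofReal ⟪gr N z, a⟫) z :=
    (hg.mul ((measurable_gr N).inner_const.ennreal_ofReal)).indicator hopen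
  have hstep : ∫⁻ z in {z | N z < 1}, g z * ENNReal.ofReal ⟪gr N z, a⟫
      = ∫⁻ w in slab l 1, ∫⁻ r in Ioo (0 : ℝ) 1,
          {r : ℝ | Meets N r w a}.indicator (fun r => g (top N r w a)) r := by
    rw [← lintegral_indicator hopen, lintegral_lines l a hla hgm]
    refine lintegral_congr_ae ?_
    filter_upwards [ae_lines l a hla (measurableSet_of_differentiableAt ℝ N) h.ae_diff] with w hw
    exact h.line_top hn ha hw
  set H : Vec n → ℝ≥0∞ := {w | Meets N 1 w a}.indicator (fun w => g (top N 1 w a)) with hH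
  have htopm : ∀ r : ℝ, Measurable fun w => top N r w a := fun r =>
    h.measurable_top.comp (measurable_const.prodMk (measurable_id.prodMk measurable_const))
  have hHm : Measurable H := (hg.comp (htopm 1)).indicator (h.measurableSet_meets 1 a)
  have hHinv : ∀ w (t : ℝ), H (w + t • a) = H w := by
    intro w t
    by_cases hm : Meets N 1 w a
    · have hm' := (IsNrm.meets_shift (N := N) w a 1 t).2 hm
      simp only [hH]
      rw [Set.indicator_of_mem (show w + t • a ∈ {w | Meets N 1 w a} from hm'),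
        Set.indicator_of_mem (show w ∈ {w | Meets N 1 w a} from hm), h.top_shift ha t hm]
    · have hm' : ¬ Meets N 1 (w + t • a) a := fun h' => hm ((IsNrm.meets_shift w a 1 t).1 h')
      simp only [hH]
      rw [Set.indicator_of_notMem (show w + t • a ∉ {w | Meets N 1 w a} from hm'),
        Set.indicator_of_notMem (show w ∉ {w | Meets N 1 w a} from hm)]
  have hjoint : Measurable fun p : Vec n × ℝ =>
      {r : ℝ | Meets N r p.1 a}.indicator (fun r => g (top N r p.1 a)) p.2 := by
    have hS : MeasurableSet {p : Vec n × ℝ | Meets N p.2 p.1 a} :=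
      h.isOpen_meets.measurableSet.preimage (f := fun p : Vec n × ℝ => (p.2, p.1, a)) (by fun_prop)
    have hT : Measurable fun p : Vec n × ℝ => g (top N p.2 p.1 a) :=
      hg.comp (h.measurable_top.comp (measurable_snd.prodMk (measurable_fst.prodMk measurable_const)))
    exact hT.indicator hS
  rw [hstep, lintegral_lintegral_swap hjoint.aemeasurable]
  have hr : ∀ r ∈ Ioo (0 : ℝ) 1,
      ∫⁻ w in slab l 1, {r : ℝ | Meets N r w a}.indicator (fun r => g (top N r w a)) r
        = ENNReal.ofReal (r ^ (n - 1)) * ∫⁻ w in slab l 1, H w := by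
    intro r hr
    have e : ∀ w, {r : ℝ | Meets N r w a}.indicator (fun r => g (top N r w a)) r
        = H (r⁻¹ • w) := by
      intro w
      by_cases hm : Meets N r w a
      · have hm' := (h.meets_scale hr.1 w a).1 hm
        simp only [hH]
        rw [Set.indicator_of_mem (show r ∈ {r | Meets N r w a} from hm),
          Set.indicator_of_mem (show r⁻¹ • w ∈ {w | Meets N 1 w a} from hm'),
          h.top_scale hr.1 ha hm, hg0 r hr.1]
      · have hm' : ¬ Meets N 1 (r⁻¹ • w) a := fun h' => hm ((h.meets_scale hr.1 w a).2 h')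
        simp only [hH]
        rw [Set.indicator_of_notMem (show r ∉ {r | Meets N r w a} from hm),
          Set.indicator_of_notMem (show r⁻¹ • w ∉ {w | Meets N 1 w a} from hm')]
    simp only [e]
    have e2 : ∀ w, (slab l 1).indicator (fun w => H (r⁻¹ • w)) w
        = (fun v => (slab l r⁻¹).indicator H v) (r⁻¹ • w) := by
      intro w
      have : w ∈ slab l 1 ↔ r⁻¹ • w ∈ slab l r⁻¹ := by
        simp only [slab, mem_ofPred_eq, real_inner_smul_right, mem_Icc]
        constructor
        · rintro ⟨h1, h2⟩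
          exact ⟨mul_nonneg (inv_nonneg.2 hr.1.le) h1,
            mul_le_of_le_one_right (inv_nonneg.2 hr.1.le) h2⟩
        · rintro ⟨h1, h2⟩
          exact ⟨nonneg_of_mul_nonneg_right (by linarith) (inv_pos.2 hr.1),
            le_of_mul_le_mul_left (by linarith) (inv_pos.2 hr.1)⟩
      by_cases hw : w ∈ slab l 1
      · simp only [Set.indicator_of_mem hw, Set.indicator_of_mem (this.1 hw)]
      · simp only [Set.indicator_of_notMem hw, Set.indicator_of_notMem fun h' => hw (this.2 h')]
    rw [← lintegral_indicator (measurableSet_slab l 1)]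
    simp only [e2]
    rw [← lintegral_map (hHm.indicator (measurableSet_slab l r⁻¹)) (measurable_const_smul r⁻¹),
      Measure.map_addHaar_smul volume (inv_ne_zero hr.1.ne'), lintegral_smul_measure,
      lintegral_indicator (measurableSet_slab l r⁻¹),
      lintegral_slab_width l a hla hHm hHinv (inv_nonneg.2 hr.1.le), smul_eq_mul, ← mul_assoc,
      ← ENNReal.ofReal_mul (abs_nonneg _)]
    congr 2
    rw [finrank_euclideanSpace_fin, inv_pow, inv_inv, abs_of_pos (pow_pos hr.1 n)]
    obtain ⟨m, rfl⟩ := Nat.exists_eq_succ_of_ne_zero hn.ne'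
    simp only [Nat.succ_sub_one, pow_succ]
    have := hr.1.ne'
    field_simp
  rw [setLIntegral_congr_fun measurableSet_Ioo hr,
    lintegral_mul_const _ (by fun_prop), lintegral_pow_Ioo, ← mul_assoc]
  obtain ⟨m, rfl⟩ := Nat.exists_eq_succ_of_ne_zero hn.ne'
  rw [show m.succ - 1 = m from rfl, ← ENNReal.ofReal_natCast, ← ENNReal.ofReal_mul (by positivity)]
  push_cast
  rw [mul_one_div, div_self (by positivity), ENNReal.ofReal_one, one_mul]

end IsNrm

end Vale.Agent.P084
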