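import Mathlib
import Vale.Agent.P084.Line

/-!
The intrinsic energy of a function on a unit sphere and its expression through chords.
-/

open MeasureTheory Set Filter
open scoped ENNReal NNReal RealInnerProductSpace Topology

namespace Vale.Agent.P084

variable {n : ℕ}

/-- The radial projection to the sphere of `N`. -/
noncomputable def unit (N : Vec n → ℝ) (z : Vec n) : Vec n := (N z)⁻¹ • z

/-- Functionals of norm less than one on the hyperplane killed by `j`. -/
def openT (N2 : Vec n → ℝ) (j : Vec n) : Set (Vec n) :=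
  {q | ∀ v, ⟪j, v⟫ = 0 → v ≠ 0 → ⟪q, v⟫ < N2 v}

/-- The parameter domain at a point. -/
def dom (N N2 : Vec n → ℝ) (z : Vec n) : Set (Vec n) :=
  slab (unit N z) 1 ∩ openT N2 (gr N z)

/-- `q` is a subgradient at `x` of the distance to `y`, along the sphere. -/
def Partner (N N2 : Vec n → ℝ) (x q y : Vec n) : Prop :=
  N y = 1 ∧ y ≠ x ∧ ∀ ε : ℝ, 0 < ε → ∀ᶠ z in 𝓝[{z | N z = 1}] x,
    ⟪q, z - x⟫ - ε * ‖z - x‖ ≤ N2 (z - y) - N2 (x - y)

/-- The squared increment per length between `x` and its partner. -/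
noncomputable def partnerVal (N N2 : Vec n → ℝ) (g : Vec n → ℝ) (x q : Vec n) : ℝ≥0∞ :=
  ⨆ y, ⨆ (_ : Partner N N2 x q y), ENNReal.ofReal ((g x - g y) ^ 2 / N2 (x - y))

/-- The intrinsic energy. -/
noncomputable def energy (N N2 : Vec n → ℝ) (g : Vec n → ℝ) : ℝ≥0∞ :=
  ∫⁻ z in {z | N z < 1}, ∫⁻ q in dom N N2 z, partnerVal N N2 g (unit N z) q

/-- The squared increment per length on the chord leaving `x` against `u`. -/
noncomputable def chordVal (N : Vec n → ℝ) (g : Vec n → ℝ) (x u : Vec n) : ℝ≥0∞ :=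
  ENNReal.ofReal ((g x - g (top N 1 x (-u))) ^ 2 / tp N 1 x (-u))

namespace IsNrm

variable {N N2 : Vec n → ℝ}

theorem diff_smul_iff (h : IsNrm N) {c : ℝ} (hc : 0 < c) (z : Vec n) :
    DifferentiableAt ℝ N (c • z) ↔ DifferentiableAt ℝ N z := by
  refine ⟨fun hd => ?_, fun hd => (h.diff_smul hd hc).1⟩
  have := (h.diff_smul hd (inv_pos.2 hc)).1
  rwa [inv_smul_smul₀ hc.ne'] at this

theorem gr_smul (h : IsNrm N) {c : ℝ} (hc : 0 < c) (z : Vec n) : gr N (c • z) = gr N z := by
  by_cases hd : DifferentiableAt ℝ N z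
  · exact (h.diff_smul hd hc).2
  · have hd' : ¬ DifferentiableAt ℝ N (c • z) := fun h' => hd ((h.diff_smul_iff hc z).1 h')
    simp only [gr, fderiv_zero_of_not_differentiableAt hd, fderiv_zero_of_not_differentiableAt hd']

theorem unit_smul (h : IsNrm N) {c : ℝ} (hc : 0 < c) (z : Vec n) :
    unit N (c • z) = unit N z := by
  rw [unit, unit, h.smul_nonneg hc.le, smul_smul, mul_inv_rev, mul_assoc, inv_mul_cancel₀ hc.ne',
    mul_one]

theorem norm_unit (h : IsNrm N) {z : Vec n} (hz : z ≠ 0) : N (unit N z) = 1 := by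
  rw [unit, h.smul_nonneg (inv_nonneg.2 (h.nonneg z)), inv_mul_cancel₀ (h.pos z hz).ne']

theorem gr_unit (h : IsNrm N) {z : Vec n} (hz : z ≠ 0) : gr N (unit N z) = gr N z :=
  h.gr_smul (inv_pos.2 (h.pos z hz)) z

theorem measurable_unit (h : IsNrm N) : Measurable (unit N) :=
  (h.continuous.measurable.inv).smul measurable_id

theorem meets_iff_openT (h2 : IsNrm N2) {j : Vec n} (hj : j ≠ 0) (q : Vec n) :
    Meets (dual N2) 1 q j ↔ q ∈ openT N2 j := by
  constructor
  · rintro ⟨s, hs⟩ v hv hv0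
    have e : ⟪q, v⟫ = ⟪q + s • j, v⟫ := by
      rw [inner_add_left, real_inner_smul_left, hv, mul_zero, add_zero]
    rw [e]
    calc ⟪q + s • j, v⟫ ≤ dual N2 (q + s • j) * N2 v := h2.inner_le _ _
      _ < 1 * N2 v := mul_lt_mul_of_pos_right hs (h2.pos v hv0)
      _ = N2 v := one_mul _
  · intro hq
    set T : Submodule ℝ (Vec n) := LinearMap.ker (innerSL ℝ j).toLinearMap with hT
    have hmem : ∀ v, v ∈ T ↔ ⟪j, v⟫ = 0 := fun v => by simp [hT]
    obtain ⟨θ, hθ0, hθ1, hθ⟩ : ∃ θ, 0 ≤ θ ∧ θ < 1 ∧ ∀ v ∈ T, ⟪q, v⟫ ≤ θ * N2 v := by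
      set S : Set (Vec n) := {v | ⟪j, v⟫ = 0} ∩ {v | N2 v = 1} with hS
      have hSc : IsCompact S :=
        (h2.isCompact_le 1).of_isClosed_subset
          ((isClosed_eq (by fun_prop) continuous_const).inter
            (isClosed_eq h2.continuous continuous_const))
          fun v hv => show N2 v ≤ 1 from (show N2 v = 1 from hv.2).le
      rcases S.eq_empty_or_nonempty with he | hne
      · refine ⟨0, le_rfl, one_pos, fun v hv => ?_⟩
        rcases eq_or_ne v 0 with rfl | hv0
        · simp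
        · exfalso
          have : (N2 v)⁻¹ • v ∈ S := ⟨by
            show ⟪j, (N2 v)⁻¹ • v⟫ = 0
            rw [real_inner_smul_right, (hmem v).1 hv, mul_zero], h2.norm_unit hv0⟩
          simp [he] at this
      · obtain ⟨m, hm, hmax⟩ := hSc.exists_isMaxOn hne (f := fun v => ⟪q, v⟫) (by fun_prop)
        have hm0 : m ≠ 0 := by
          rintro rfl
          have : N2 0 = 1 := hm.2
          rw [h2.map_zero] at this
          exact zero_ne_one this
        refine ⟨max 0 ⟪q, m⟫, le_max_left _ _, max_lt one_pos ?_, fun v hv => ?_⟩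
        · have := hq m hm.1 hm0
          rwa [show N2 m = 1 from hm.2] at this
        rcases eq_or_ne v 0 with rfl | hv0
        · simp [h2.map_zero]
        have hin : (N2 v)⁻¹ • v ∈ S := ⟨by
          show ⟪j, (N2 v)⁻¹ • v⟫ = 0
          rw [real_inner_smul_right, (hmem v).1 hv, mul_zero], h2.norm_unit hv0⟩
        have := hmax hin
        simp only [mem_ofPred_eq, real_inner_smul_right] at this
        rw [inv_mul_le_iff₀ (h2.pos v hv0)] at this
        calc ⟪q, v⟫ ≤ N2 v * ⟪q, m⟫ := this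
          _ ≤ max 0 ⟪q, m⟫ * N2 v := by
              rw [mul_comm (N2 v)]
              exact mul_le_mul_of_nonneg_right (le_max_right _ _) (h2.nonneg v)
    obtain ⟨Q, hQ, hQn⟩ := h2.exists_extend T q hθ0 hθ
    set c := ⟪j, Q - q⟫ / ⟪j, j⟫ with hc
    have hjj : ⟪j, j⟫ ≠ 0 := by simpa using hj
    set v := (Q - q) - c • j with hv
    have hvj : ⟪j, v⟫ = 0 := by
      rw [hv, inner_sub_right, real_inner_smul_right, hc, div_mul_cancel₀ _ hjj, sub_self]
    have hvQ : ⟪Q - q, v⟫ = 0 := by
      rw [inner_sub_left, hQ v ((hmem v).2 hvj), sub_self]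
    have hv0 : v = 0 := by
      rw [← inner_self_eq_zero (𝕜 := ℝ)]
      calc ⟪v, v⟫ = ⟪(Q - q) - c • j, v⟫ := by rw [hv]
        _ = 0 := by rw [inner_sub_left, real_inner_smul_left, hvj, mul_zero, sub_zero, hvQ]
    refine ⟨c, ?_⟩
    rw [show q + c • j = Q by rw [← sub_eq_zero.1 hv0]; abel]
    exact hQn.trans_lt hθ1

/-- A chord leaving `x` into the body. -/
theorem exists_enter (h : IsNrm N) {x u : Vec n} (hx : N x = 1) (hd : DifferentiableAt ℝ N x)
    (hu : 0 < ⟪gr N x, u⟫) : ∃ t : ℝ, 0 < t ∧ N (x + t • -u) < 1 := by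
  have hD : HasDerivAt (fun t : ℝ => N (x + t • -u)) (-⟪gr N x, u⟫) 0 := by
    have hline : HasDerivAt (fun t : ℝ => x + t • -u) (-u) 0 := by
      simpa using ((hasDerivAt_id (0 : ℝ)).smul_const (-u)).const_add x
    have hF : HasFDerivAt N (fderiv ℝ N x) (x + (0 : ℝ) • -u) := by simpa using hd.hasFDerivAt
    rw [inner_gr, ← (fderiv ℝ N x).map_neg]
    exact hF.comp_hasDerivAt 0 hline
  have := (hD.tendsto_slope_zero_right.eventually (eventually_lt_nhds (neg_lt_zero.2 hu))).and
    self_mem_nhdsWithin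
  obtain ⟨t, ht, ht0⟩ := this.exists
  refine ⟨t, ht0, ?_⟩
  simp only [zero_add, zero_smul, add_zero, hx, smul_eq_mul] at ht
  by_contra hge
  have := mul_nonneg (inv_nonneg.2 (mem_Ioi.1 ht0).le) (sub_nonneg.2 (not_lt.1 hge))
  linarith

/-- At almost every parameter the partner is unique: it is the far end of a chord. -/
theorem partnerVal_eq (h : IsNrm N) (h2 : IsNrm N2) (g : Vec n → ℝ) {x q Q u : Vec n} {s : ℝ}
    (hx : N x = 1) (hdx : DifferentiableAt ℝ N x) (hQ : Q = q + s • gr N x)
    (hQ1 : dual N2 Q = 1) (hdQ : DifferentiableAt ℝ (dual N2) Q) (hu : u = gr (dual N2) Q)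
    (hq : q ∈ openT N2 (gr N x)) (hα : 0 < ⟪gr N x, u⟫) :
    partnerVal N N2 g x q = chordVal N g x u := by
  set j := gr N x with hj
  have hu0 : u ≠ 0 := by rintro rfl; simp at hα
  have hQ0 : Q ≠ 0 := by
    rintro rfl; rw [h2.isNrm_dual.map_zero] at hQ1; exact zero_ne_one hQ1
  have hu1 : N2 u = 1 := by rw [hu]; exact h2.gr_dual_norm_eq hdQ hQ0
  have hQu : ⟪Q, u⟫ = 1 := by
    rw [hu, real_inner_comm, h2.isNrm_dual.gr_self hdQ, hQ1]
  have hQle : ∀ v, ⟪Q, v⟫ ≤ N2 v := fun v => by
    have := h2.inner_le Q v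
    rwa [hQ1, one_mul] at this
  obtain ⟨t0, ht0, hlt0⟩ := h.exists_enter hx hdx hα
  have hnu : -u ≠ 0 := neg_ne_zero.2 hu0
  have hy : N (top N 1 x (-u)) = 1 := h.tp_spec hnu ⟨t0, hlt0⟩
  set lam := tp N 1 x (-u) with hlam
  have hlam0 : 0 < lam := ht0.trans (h.lt_tp hnu hlt0)
  set y := top N 1 x (-u) with hydef
  have hxy : x - y = lam • u := by
    rw [hydef, top, smul_neg, sub_add_cancel_left, neg_neg]
  have hdist : N2 (x - y) = lam := by rw [hxy, h2.smul_nonneg hlam0.le, hu1, mul_one]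
  have hP : Partner N N2 x q y := by
    refine ⟨hy, ?_, fun ε hε => ?_⟩
    · intro hyx
      rw [hyx, sub_self] at hxy
      exact hu0 ((smul_eq_zero.1 hxy.symm).resolve_left hlam0.ne')
    have ho := hdx.hasFDerivAt.isLittleO.def (show 0 < ε / (|s| + 1) by positivity)
    filter_upwards [nhdsWithin_le_nhds ho, self_mem_nhdsWithin] with z hz hzS
    have hzS' : N z = 1 := hzS
    rw [hzS', hx, sub_self, zero_sub, norm_neg, ← inner_gr, Real.norm_eq_abs] at hz
    have h1 := hQle (z - y)
    have h3 : ⟪Q, z - y⟫ = ⟪q, z - x⟫ + s * ⟪j, z - x⟫ + lam := by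
      rw [show z - y = (z - x) + (x - y) by abel, inner_add_right, hxy, real_inner_smul_right, hQu,
        hQ, inner_add_left, real_inner_smul_left, mul_one]
    have h4 : |s * ⟪j, z - x⟫| ≤ ε * ‖z - x‖ := by
      rw [abs_mul]
      calc |s| * |⟪j, z - x⟫| ≤ (|s| + 1) * (ε / (|s| + 1) * ‖z - x‖) :=
            mul_le_mul (by linarith [abs_nonneg s]) hz (abs_nonneg _) (by positivity)
        _ = ε * ‖z - x‖ := by field_simp
    rw [hdist]
    linarith [(abs_le.1 h4).1]
  have huniq : ∀ y', Partner N N2 x q y' → y' = y := by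
    rintro y' ⟨hy'1, hy'x, hsub⟩
    set mu := N2 (x - y') with hmu
    have hmu0 : 0 < mu := h2.pos _ (sub_ne_zero.2 (Ne.symm hy'x))
    set u' := mu⁻¹ • (x - y') with hu'
    have hu'1 : N2 u' = 1 := by
      rw [hu', h2.smul_nonneg (inv_nonneg.2 hmu0.le), inv_mul_cancel₀ hmu0.ne']
    have key : ∀ v, ⟪j, v⟫ = 0 → mu + ⟪q, v⟫ ≤ N2 (x - y' + v) := by
      intro v hv
      set c : ℝ → Vec n := fun t => unit N (x + t • v) with hc
      have hcd : HasDerivAt c v 0 := by
        have hl : HasDerivAt (fun t : ℝ => x + t • v) v 0 := by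
          simpa using ((hasDerivAt_id (0 : ℝ)).smul_const v).const_add x
        have hF : HasFDerivAt N (fderiv ℝ N x) (x + (0 : ℝ) • v) := by simpa using hdx.hasFDerivAt
        have hN' : HasDerivAt (fun t : ℝ => N (x + t • v)) 0 0 := by
          have := hF.comp_hasDerivAt 0 hl
          rwa [← inner_gr, ← hj, hv] at this
        have hne : N (x + (0 : ℝ) • v) ≠ 0 := by simp [hx]
        have := (hN'.inv hne).smul hl
        exact this.congr_deriv (by simp [hx])
      have hc0 : c 0 = x := by simp [hc, unit, hx]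
      have hlim : Tendsto (fun t : ℝ => t⁻¹ • (c t - x)) (𝓝[>] 0) (𝓝 v) := by
        simpa [hc0] using hcd.tendsto_slope_zero_right
      have hcS : ∀ᶠ t in 𝓝[>] (0 : ℝ), c t ∈ {z | N z = 1} := by
        have hcont : ContinuousAt (fun t : ℝ => x + t • v) 0 := by fun_prop
        have hx0 : x + (0 : ℝ) • v ≠ 0 := by
          rw [zero_smul, add_zero]; rintro rfl; rw [h.map_zero] at hx; exact zero_ne_one hx
        filter_upwards [nhdsWithin_le_nhds (hcont.eventually_ne hx0)] with t ht
        exact h.norm_unit ht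
      have htend : Tendsto c (𝓝[>] 0) (𝓝[{z | N z = 1}] x) :=
        tendsto_nhdsWithin_iff.2
          ⟨by simpa [hc0] using hcd.continuousAt.tendsto.mono_left nhdsWithin_le_nhds, hcS⟩
      refine le_of_forall_pos_le_add fun η hη => ?_
      set ε := η / (‖v‖ + 1) with hε
      have hε0 : 0 < ε := div_pos hη (by positivity)
      have hA : Tendsto (fun t : ℝ => (N2 (x - y' + v) - mu) + N2 (t⁻¹ • (c t - x) - v))
          (𝓝[>] 0) (𝓝 ((N2 (x - y' + v) - mu) + N2 (v - v))) :=
        tendsto_const_nhds.add ((h2.continuous.tendsto _).comp (hlim.sub_const v))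
      have hB : Tendsto (fun t : ℝ => ⟪q, t⁻¹ • (c t - x)⟫ - ε * ‖t⁻¹ • (c t - x)‖)
          (𝓝[>] 0) (𝓝 (⟪q, v⟫ - ε * ‖v‖)) :=
        ((tendsto_const_nhds.inner hlim)).sub (hlim.norm.const_mul ε)
      have hle := le_of_tendsto_of_tendsto hB hA ?_
      · rw [sub_self, h2.map_zero, add_zero] at hle
        have : ε * ‖v‖ ≤ η := by
          rw [hε, div_mul_eq_mul_div, div_le_iff₀ (by positivity)]
          exact mul_le_mul_of_nonneg_left (by linarith) hη.le
        linarith
      filter_upwards [htend.eventually (hsub ε hε0), Ioo_mem_nhdsGT one_pos] with t h1 ht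
      have e : x - y' + t • v = (x - y') + t • v := rfl
      have hconv := h2.line_le (x - y') v ht.1.le ht.2.le one_pos
      rw [one_smul, div_one] at hconv
      have h4 : N2 (c t - y') ≤ N2 (x - y' + t • v) + N2 (c t - x - t • v) := by
        refine le_trans (le_of_eq (congrArg N2 ?_)) (h2.tri _ _)
        abel
      have h5 : N2 (t⁻¹ • (c t - x) - v) = t⁻¹ * N2 (c t - x - t • v) := by
        rw [← h2.smul_nonneg (inv_nonneg.2 ht.1.le), smul_sub t⁻¹ (c t - x),
          inv_smul_smul₀ ht.1.ne']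
      rw [real_inner_smul_right, norm_smul, Real.norm_eq_abs, abs_of_pos (inv_pos.2 ht.1), h5]
      have h6 : t * (t⁻¹ * ⟪q, c t - x⟫ - ε * (t⁻¹ * ‖c t - x‖)) ≤
          t * ((N2 (x - y' + v) - mu) + t⁻¹ * N2 (c t - x - t • v)) := by
        have := ht.1.ne'
        rw [mul_sub, mul_add, mul_inv_cancel_left₀ this, mul_inv_cancel_left₀ this,
          mul_left_comm t ε, mul_inv_cancel_left₀ this]
        linarith
      exact le_of_mul_le_mul_left h6 ht.1
    have key' : ∀ v, ⟪j, v⟫ = 0 → 1 + ⟪q, v⟫ ≤ N2 (u' + v) := by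
      intro v hv
      have := key (mu • v) (by rw [real_inner_smul_right, hv, mul_zero])
      rw [show x - y' + mu • v = mu • (u' + v) by rw [hu', smul_add, smul_inv_smul₀ hmu0.ne'],
        h2.smul_nonneg hmu0.le, real_inner_smul_right] at this
      exact le_of_mul_le_mul_left (by linarith) hmu0
    have ha0 : 0 ≤ ⟪j, u'⟫ := by
      have hb := h.gr_bound hdx y'
      have hs := h.gr_self hdx
      rw [hx] at hs
      rw [hy'1] at hb
      rw [hu', real_inner_smul_right, inner_sub_right, hs]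
      exact mul_nonneg (inv_nonneg.2 hmu0.le) (by linarith)
    rcases ha0.eq_or_lt with ha | ha
    · exfalso
      have hu'0 : u' ≠ 0 := fun hz => by rw [hz, h2.map_zero] at hu'1; exact zero_ne_one hu'1
      have h1 := key' (-u') (by rw [inner_neg_right, ← ha, neg_zero])
      have h3 := hq u' ha.symm hu'0
      rw [add_neg_cancel, h2.map_zero, inner_neg_right] at h1
      linarith
    set b := ⟪j, u'⟫ / ⟪j, u⟫ with hb
    have hb0 : 0 < b := div_pos ha hα
    have hvj : ⟪j, b • u - u'⟫ = 0 := by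
      rw [inner_sub_right, real_inner_smul_right, hb, div_mul_cancel₀ _ hα.ne', sub_self]
    have h1 := key' _ hvj
    rw [add_sub_cancel, h2.smul_nonneg hb0.le, hu1, mul_one] at h1
    have h3 : ⟪q, b • u - u'⟫ = b - ⟪Q, u'⟫ := by
      have : ⟪Q, b • u - u'⟫ = ⟪q, b • u - u'⟫ := by
        rw [hQ, inner_add_left, real_inner_smul_left, hvj, mul_zero, add_zero]
      rw [← this, inner_sub_right, real_inner_smul_right, hQu, mul_one]
    have h4 : ⟪Q, u'⟫ = 1 := le_antisymm ((hQle u').trans_eq hu'1) (by linarith)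
    have huu : u' = u := by
      rw [hu]
      refine h2.isNrm_dual.gr_unique hdQ (fun w => ?_) (by rw [real_inner_comm, h4, hQ1])
      rw [real_inner_comm]
      have := h2.inner_le w u'
      rwa [hu'1, mul_one] at this
    have hy' : y' = x + mu • -u := by
      rw [← huu, hu', smul_neg, smul_inv_smul₀ hmu0.ne', ← sub_eq_add_neg, sub_sub_cancel]
    have htlt : t0 < mu := by
      by_contra hge
      push Not at hge
      have hc := h.line_le x (-u) hmu0.le hge ht0
      rw [← hy', hy'1, hx] at hc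
      have := mul_lt_mul_of_pos_left hlt0 (div_pos hmu0 ht0)
      linarith
    have : lam = mu := h.tp_unique hnu htlt hlt0 (hy' ▸ hy'1)
    rw [hy', hydef, top, ← hlam, this]
  refine le_antisymm (iSup₂_le fun y' hy' => ?_) ?_
  · rw [huniq y' hy', hdist]
    exact le_rfl
  · refine le_iSup₂_of_le y hP ?_
    rw [hdist]
    exact le_rfl

theorem measurable_chordVal (h : IsNrm N) {g : Vec n → ℝ} (hg : Measurable g) {α : Type*}
    [MeasurableSpace α] {a b : α → Vec n} (ha : Measurable a) (hb : Measurable b) :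
    Measurable fun p => chordVal N g (a p) (b p) := by
  have hp : Measurable fun p => ((1 : ℝ), a p, -b p) :=
    measurable_const.prodMk (ha.prodMk hb.neg)
  have h1 : Measurable fun p => tp N 1 (a p) (-b p) := h.measurable_tp.comp hp
  have h2 : Measurable fun p => top N 1 (a p) (-b p) := h.measurable_top.comp hp
  unfold chordVal
  exact ((((hg.comp ha).sub (hg.comp h2)).pow_const 2).div h1).ennreal_ofReal

/-- Almost every top point of a chord is a point of differentiability. -/
theorem ae_top_diff (h : IsNrm N) (hn : 0 < n) {x j : Vec n} (hxj : ⟪x, j⟫ = 1) :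
    ∀ᵐ q : Vec n, q ∈ {w | Meets N 1 w j} ∩ slab x 1 → DifferentiableAt ℝ N (top N 1 q j) := by
  set B : Set (Vec n) := {Q | DifferentiableAt ℝ N Q}ᶜ with hB
  have hBm : MeasurableSet B := (measurableSet_of_differentiableAt ℝ N).compl
  have hBinv : ∀ c : ℝ, 0 < c → ∀ Q, B.indicator (fun _ => (1 : ℝ≥0∞)) (c • Q)
      = B.indicator (fun _ => 1) Q := fun c hc Q => by
    by_cases hQ : Q ∈ B
    · rw [Set.indicator_of_mem hQ,
        Set.indicator_of_mem (show c • Q ∈ B from fun h' => hQ ((h.diff_smul_iff hc Q).1 h'))]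
    · rw [Set.indicator_of_notMem hQ,
        Set.indicator_of_notMem (show c • Q ∉ B from fun h' => hQ fun hd => h' ((h.diff_smul_iff hc Q).2 hd))]
  have h0 := h.top_formula hn hxj (measurable_const.indicator hBm) hBinv
  have hzero : ∫⁻ q in {q | N q < 1}, B.indicator (fun _ => (1 : ℝ≥0∞)) q *
      ENNReal.ofReal ⟪gr N q, j⟫ = 0 := by
    refine (lintegral_congr fun q => ?_).trans lintegral_zero
    by_cases hq : q ∈ B
    · have hq' : ¬ DifferentiableAt ℝ N q := hq
      simp [inner_gr, fderiv_zero_of_not_differentiableAt hq']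
    · rw [Set.indicator_of_notMem hq, zero_mul]
  have hmm := h.measurableSet_meets 1 j
  have htopm : Measurable fun w => top N 1 w j :=
    h.measurable_top.comp (measurable_const.prodMk (measurable_id.prodMk measurable_const))
  have hBt : Measurable fun a => B.indicator (fun _ => (1 : ℝ≥0∞)) (top N 1 a j) :=
    (measurable_const.indicator hBm).comp htopm
  rw [hzero, mul_zero, setLIntegral_indicator hmm, eq_comm, lintegral_eq_zero_iff hBt] at h0
  have h0' := (ae_restrict_iff' (hmm.inter (measurableSet_slab x 1))).1 h0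
  filter_upwards [h0'] with q hq hqm
  have := hq hqm
  simp only [Pi.zero_apply] at this
  by_contra hnd
  rw [Set.indicator_of_mem (show top N 1 q j ∈ B from hnd)] at this
  exact one_ne_zero this

/-- The inner integral of the energy. -/
theorem energy_inner (h : IsNrm N) (h2 : IsNrm N2) (hn : 0 < n) {g : Vec n → ℝ}
    (hg : Measurable g) {z : Vec n} (hz : DifferentiableAt ℝ N z) :
    ∫⁻ q in dom N N2 z, partnerVal N N2 g (unit N z) q
      = (n : ℝ≥0∞) * ∫⁻ q in {q | dual N2 q < 1},
          chordVal N g (unit N z) (gr (dual N2) q) *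
            ENNReal.ofReal ⟪gr (dual N2) q, gr N z⟫ := by
  have hMn := h2.isNrm_dual
  have hz0 : z ≠ 0 := fun h0 => h.not_diff_zero hn (h0 ▸ hz)
  set x := unit N z with hx
  have hx1 : N x = 1 := h.norm_unit hz0
  have hdx : DifferentiableAt ℝ N x := (h.diff_smul_iff (inv_pos.2 (h.pos z hz0)) z).2 hz
  have hjx : gr N x = gr N z := h.gr_unit hz0
  set j := gr N z with hj
  have hxj : ⟪x, j⟫ = 1 := by rw [← hjx, real_inner_comm, h.gr_self hdx, hx1]
  have hj0 : j ≠ 0 := by rintro hh; rw [hh, inner_zero_right] at hxj; exact zero_ne_one hxj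
  have hggm : Measurable fun Q => chordVal N g x (gr (dual N2) Q) :=
    h.measurable_chordVal hg measurable_const (measurable_gr (dual N2))
  rw [hMn.top_formula hn hxj hggm (fun c hc Q => by simp only [hMn.gr_smul hc])]
  have hset : dom N N2 z = {w | Meets (dual N2) 1 w j} ∩ slab x 1 := by
    ext q
    simp only [dom, ← hx, mem_inter_iff, mem_ofPred_eq, ← hj, h2.meets_iff_openT hj0]
    tauto
  have hmm := hMn.measurableSet_meets 1 j
  rw [setLIntegral_indicator hmm, hset]
  refine setLIntegral_congr_fun_ae (hmm.inter (measurableSet_slab x 1)) ?_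
  filter_upwards [hMn.ae_top_diff hn hxj] with q hq hqm
  have hdQ := hq hqm
  have hm' : Meets (dual N2) 1 q j := hqm.1
  have hQ1 : dual N2 (top (dual N2) 1 q j) = 1 := hMn.tp_spec hj0 hm'
  have hqO : q ∈ openT N2 (gr N x) := by rw [hjx]; exact (h2.meets_iff_openT hj0 q).1 hm'
  refine h.partnerVal_eq h2 g (Q := top (dual N2) 1 q j) (s := tp (dual N2) 1 q j)
    hx1 hdx ?_ hQ1 hdQ rfl hqO ?_
  · rw [hjx]; rfl
  · obtain ⟨t', ht'⟩ := hm'
    have hlt := hMn.lt_tp hj0 ht'
    have := hMn.gr_le hdQ ((t' - tp (dual N2) 1 q j) • j)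
    rw [real_inner_smul_right, hQ1, top, add_assoc, ← add_smul, add_sub_cancel] at this
    rw [hjx, real_inner_comm, top]
    by_contra hle
    have := mul_nonneg_of_nonpos_of_nonpos (sub_nonpos.2 hlt.le) (not_lt.1 hle)
    linarith

/-- The chord integral at a fixed parameter. -/
theorem energy_outer (h : IsNrm N) (h2 : IsNrm N2) (hn : 0 < n) {g : Vec n → ℝ}
    (hg : Measurable g) {q : Vec n} (hq : DifferentiableAt ℝ (dual N2) q) :
    (n : ℝ≥0∞) * ∫⁻ z in {z | N z < 1}, chordVal N g (unit N z) (gr (dual N2) q) *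
        ENNReal.ofReal ⟪gr (dual N2) q, gr N z⟫
      = ∫⁻ w in slab ((dual N2 q)⁻¹ • q) 1,
        {w | Meets N 1 w (gr (dual N2) q)}.indicator
          (fun w => chordVal N g (top N 1 w (gr (dual N2) q)) (gr (dual N2) q)) w := by
  have hMn := h2.isNrm_dual
  have hq0 : q ≠ 0 := fun h0 => hMn.not_diff_zero hn (h0 ▸ hq)
  have hlu : ⟪(dual N2 q)⁻¹ • q, gr (dual N2) q⟫ = 1 := by
    rw [real_inner_smul_left, real_inner_comm, hMn.gr_self hq,
      inv_mul_cancel₀ (hMn.pos q hq0).ne']
  set u := gr (dual N2) q with hu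
  have hu0 : u ≠ 0 := by rintro hh; rw [hh, inner_zero_right] at hlu; exact zero_ne_one hlu
  have hggm : Measurable fun z => chordVal N g (unit N z) u :=
    h.measurable_chordVal hg h.measurable_unit measurable_const
  simp only [real_inner_comm _ u]
  rw [h.top_formula hn hlu hggm fun c hc z => by simp only [h.unit_smul hc]]
  refine lintegral_congr fun w => ?_
  by_cases hw : Meets N 1 w u
  · rw [Set.indicator_of_mem (show w ∈ {w | Meets N 1 w u} from hw),
      Set.indicator_of_mem (show w ∈ {w | Meets N 1 w u} from hw)]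
    simp only [unit, h.tp_spec hu0 hw, inv_one, one_smul]
  · rw [Set.indicator_of_notMem (show w ∉ {w | Meets N 1 w u} from hw),
      Set.indicator_of_notMem (show w ∉ {w | Meets N 1 w u} from hw)]

/-- The intrinsic energy equals the chord energy. -/
theorem energy_eq (h : IsNrm N) (h2 : IsNrm N2) (hn : 0 < n) {g : Vec n → ℝ}
    (hg : Measurable g) :
    energy N N2 g = ∫⁻ q in {q | dual N2 q < 1},
      ∫⁻ w in slab ((dual N2 q)⁻¹ • q) 1,
        {w | Meets N 1 w (gr (dual N2) q)}.indicator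
          (fun w => chordVal N g (top N 1 w (gr (dual N2) q)) (gr (dual N2) q)) w := by
  have hG1 : Measurable fun p : Vec n × Vec n =>
      chordVal N g (unit N p.1) (gr (dual N2) p.2) :=
    h.measurable_chordVal hg (h.measurable_unit.comp measurable_fst)
      ((measurable_gr (dual N2)).comp measurable_snd)
  have hG2 : Measurable fun p : Vec n × Vec n =>
      ENNReal.ofReal ⟪gr (dual N2) p.2, gr N p.1⟫ :=
    (((measurable_gr (dual N2)).comp measurable_snd).inner
      ((measurable_gr N).comp measurable_fst)).ennreal_ofReal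
  rw [energy, lintegral_congr_ae
      (ae_restrict_of_ae (h.ae_diff.mono fun z hz => h.energy_inner h2 hn hg hz)),
    lintegral_const_mul' _ _ (by simp),
    lintegral_lintegral_swap (hG1.mul hG2).aemeasurable, ← lintegral_const_mul' _ _ (by simp)]
  exact lintegral_congr_ae (ae_restrict_of_ae (h2.isNrm_dual.ae_diff.mono fun q hq =>
    h.energy_outer h2 hn hg hq))

end IsNrm

end Vale.Agent.P084
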