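import Mathlib
import Vale.Agent.P084.Energy

/-!
The energy is at most an averaged Dirichlet integral, with midpoint identities at equality.
-/

open MeasureTheory Set Filter
open scoped ENNReal NNReal RealInnerProductSpace Topology

namespace Vale.Agent.P084

variable {n : ℕ}

/-- The averaged squared pairing with the norming vectors of `N2`. -/
noncomputable def quad (N2 : Vec n → ℝ) (ξ : Vec n) : ℝ≥0∞ :=
  ∫⁻ q in {q | dual N2 q < 1}, ENNReal.ofReal (⟪ξ, gr (dual N2) q⟫ ^ 2)

/-- Cauchy-Schwarz on an interval with its defect. -/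
theorem interval_identity {φ : ℝ → ℝ} {K : ℝ≥0} (hφ : LipschitzWith K φ) {a b : ℝ} (hab : a < b) :
    ∫⁻ t in Ioo a b, ENNReal.ofReal (deriv φ t ^ 2)
      = ENNReal.ofReal ((φ b - φ a) ^ 2 / (b - a)) +
        ∫⁻ t in Ioo a b, ENNReal.ofReal ((deriv φ t - (φ b - φ a) / (b - a)) ^ 2) := by
  set s := (φ b - φ a) / (b - a) with hs
  have hbd : ∀ t, |deriv φ t| ≤ K := fun t => by
    rw [← Real.norm_eq_abs]; exact norm_deriv_le_of_lipschitz hφ
  have hb' : ∀ (p : ℝ → ℝ), Continuous p →
      IntegrableOn (fun t => p (deriv φ t)) (Ioo a b) := by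
    intro p hp
    obtain ⟨B, hB⟩ := (isCompact_Icc (a := -(K : ℝ)) (b := K)).exists_bound_of_continuousOn
      hp.continuousOn
    exact IntegrableOn.of_bound measure_Ioo_lt_top
      (hp.measurable.comp (measurable_deriv φ)).aestronglyMeasurable B
      (Eventually.of_forall fun t => hB _ (abs_le.1 (hbd t)))
  have hint : ∫ t in Ioo a b, deriv φ t = φ b - φ a := by
    rw [← integral_Ioc_eq_integral_Ioo, ← intervalIntegral.integral_of_le hab.le]
    exact hφ.lipschitzOnWith.absolutelyContinuousOnInterval.integral_deriv_eq_sub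
  have h2 : IntegrableOn (fun t => deriv φ t ^ 2) (Ioo a b) :=
    hb' (fun x => x ^ 2) (by fun_prop)
  have h3 : IntegrableOn (fun t => (deriv φ t - s) ^ 2) (Ioo a b) :=
    hb' (fun x => (x - s) ^ 2) (by fun_prop)
  have h1 : IntegrableOn (fun t => 2 * s * deriv φ t) (Ioo a b) :=
    hb' (fun x => 2 * s * x) (by fun_prop)
  have h4 : IntegrableOn (fun _ : ℝ => s ^ 2) (Ioo a b) := hb' (fun _ => s ^ 2) continuous_const
  have hexp : ∫ t in Ioo a b, (deriv φ t - s) ^ 2
      = (∫ t in Ioo a b, deriv φ t ^ 2) - (φ b - φ a) ^ 2 / (b - a) := by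
    calc ∫ t in Ioo a b, (deriv φ t - s) ^ 2
        = ∫ t in Ioo a b, (deriv φ t ^ 2 - 2 * s * deriv φ t + s ^ 2) := by
          refine setIntegral_congr_fun measurableSet_Ioo fun t _ => ?_
          show (deriv φ t - s) ^ 2 = _
          ring
      _ = (∫ t in Ioo a b, deriv φ t ^ 2) - (∫ t in Ioo a b, 2 * s * deriv φ t)
            + ∫ _t in Ioo a b, s ^ 2 := by
          have h5 : IntegrableOn (fun t => deriv φ t ^ 2 - 2 * s * deriv φ t) (Ioo a b) := h2.sub h1
          rw [integral_add h5 h4, integral_sub h2 h1]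
      _ = _ := by
          rw [integral_const_mul, hint, setIntegral_const, Real.volume_real_Ioo_of_le hab.le,
            smul_eq_mul, hs]
          have : b - a ≠ 0 := (sub_pos.2 hab).ne'
          field_simp
          ring
  rw [← ofReal_integral_eq_lintegral_ofReal h2 (Eventually.of_forall fun t => sq_nonneg _),
    ← ofReal_integral_eq_lintegral_ofReal h3 (Eventually.of_forall fun t => sq_nonneg _),
    ← ENNReal.ofReal_add (div_nonneg (sq_nonneg _) (sub_pos.2 hab).le)
      (setIntegral_nonneg measurableSet_Ioo fun t _ => sq_nonneg _), hexp, add_sub_cancel]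

/-- If the defect vanishes the function is affine. -/
theorem affine_of_defect {φ : ℝ → ℝ} {K : ℝ≥0} (hφ : LipschitzWith K φ) {a b : ℝ} (hab : a < b)
    {s : ℝ} (h0 : ∫⁻ t in Ioo a b, ENNReal.ofReal ((deriv φ t - s) ^ 2) = 0) :
    ∀ t ∈ Icc a b, φ t = φ a + s * (t - a) := by
  intro t ht
  rw [lintegral_eq_zero_iff (((measurable_deriv φ).sub_const s).pow_const 2).ennreal_ofReal] at h0
  have hae : ∀ᵐ x : ℝ, x ∈ uIoc a t → deriv φ x = s := by
    filter_upwards [(ae_restrict_iff' measurableSet_Ioo).1 h0,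
      (measure_eq_zero_iff_ae_notMem.1 (measure_singleton b) : ∀ᵐ x : ℝ, x ∉ ({b} : Set ℝ))]
      with x hx hxb hxt
    rw [uIoc_of_le ht.1] at hxt
    have hlt : x < b := lt_of_le_of_ne (hxt.2.trans ht.2) hxb
    have := hx ⟨hxt.1, hlt⟩
    simp only [Pi.zero_apply, ENNReal.ofReal_eq_zero] at this
    have := le_antisymm this (sq_nonneg _)
    exact sub_eq_zero.1 (pow_eq_zero_iff (two_ne_zero) |>.1 this)
  have := (hφ.lipschitzOnWith.absolutelyContinuousOnInterval (a := a) (b := t)).integral_deriv_eq_sub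
  rw [intervalIntegral.integral_congr_ae hae, intervalIntegral.integral_const, smul_eq_mul] at this
  linarith

namespace IsNrm

variable {N N2 : Vec n → ℝ}

theorem chord_eq (h : IsNrm N) {u w : Vec n} (hu : u ≠ 0) {r : ℝ} (hm : Meets N r w u) :
    -(tp N r w (-u)) < tp N r w u ∧
      {t : ℝ | N (w + t • u) < r} = Ioo (-(tp N r w (-u))) (tp N r w u) := by
  have hnu : -u ≠ 0 := neg_ne_zero.2 hu
  have e : ∀ t : ℝ, w + t • u = w + (-t) • -u := fun t => by rw [smul_neg, neg_smul, neg_neg]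
  have hmem : ∀ t, N (w + t • u) < r → -(tp N r w (-u)) < t ∧ t < tp N r w u := fun t ht => by
    refine ⟨?_, h.lt_tp hu ht⟩
    have := h.lt_tp hnu (show N (w + (-t) • -u) < r by rwa [← e])
    linarith
  obtain ⟨t0, ht0⟩ := hm
  obtain ⟨hA, hB⟩ := hmem t0 ht0
  refine ⟨hA.trans hB, Set.ext fun t => ⟨fun ht => hmem t ht, fun ⟨h1, h2⟩ => ?_⟩⟩
  have hcase : ∀ (a : Vec n), a ≠ 0 → ∀ t0 t : ℝ, N (w + t0 • a) < r → t0 ≤ t → t < tp N r w a →
      N (w + t • a) < r := by
    intro a ha t0 t ht0 hle hlt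
    obtain ⟨s, hs, hts⟩ := exists_lt_of_lt_csSup (s := {t : ℝ | N (w + t • a) < r}) ⟨t0, ht0⟩ hlt
    have hs' : N (w + s • a) < r := hs
    have h1 := h.line_le (w + t0 • a) a (t := t - t0) (s := s - t0) (by linarith) (by linarith)
      (by linarith)
    rw [add_assoc, ← add_smul, add_assoc, ← add_smul, add_sub_cancel, add_sub_cancel] at h1
    have hθ0 : 0 ≤ (t - t0) / (s - t0) := div_nonneg (by linarith) (by linarith)
    have hθ1 : 0 < 1 - (t - t0) / (s - t0) := by
      rw [sub_pos, div_lt_one (by linarith)]; linarith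
    have := mul_lt_mul_of_pos_left ht0 hθ1
    have := mul_le_mul_of_nonneg_left hs'.le hθ0
    linarith
  rcases le_total t0 t with hle | hle
  · exact hcase u hu t0 t ht0 hle h2
  · show N (w + t • u) < r
    rw [e]
    exact hcase (-u) hnu (-t0) (-t) (by rwa [← e]) (by linarith) (by linarith)

/-- The line integral of the squared directional derivative. -/
theorem line_identity (h : IsNrm N) {u w : Vec n} (hu : u ≠ 0) (hm : Meets N 1 w u)
    {g : Vec n → ℝ} {K : ℝ≥0} (hg : LipschitzWith K g)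
    (hd : ∀ᵐ t : ℝ, DifferentiableAt ℝ g (w + t • u)) :
    ∫⁻ t : ℝ, {z | N z < 1}.indicator (fun z => ENNReal.ofReal (⟪gr g z, u⟫ ^ 2)) (w + t • u)
      = chordVal N g (top N 1 w u) u +
        ∫⁻ t in Ioo (-(tp N 1 w (-u))) (tp N 1 w u),
          ENNReal.ofReal ((deriv (fun t : ℝ => g (w + t • u)) t -
            (g (w + tp N 1 w u • u) - g (w + (-(tp N 1 w (-u))) • u)) /
              (tp N 1 w u - -(tp N 1 w (-u)))) ^ 2) := by
  obtain ⟨hab, hset⟩ := h.chord_eq hu hm
  set φ : ℝ → ℝ := fun t => g (w + t • u) with hφ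
  have hK : LipschitzWith (K * ‖u‖₊) φ := LipschitzWith.of_dist_le_mul fun x y => by
    refine (hg.dist_le_mul _ _).trans (le_of_eq ?_)
    rw [dist_add_left, dist_eq_norm, ← sub_smul, norm_smul, NNReal.coe_mul, coe_nnnorm,
      Real.dist_eq, ← Real.norm_eq_abs]
    ring
  have hnu : -u ≠ 0 := neg_ne_zero.2 hu
  have hm' : Meets N 1 w (-u) := by
    obtain ⟨t, ht⟩ := hm
    exact ⟨-t, by rwa [smul_neg, neg_smul, neg_neg]⟩
  have htop : top N 1 (top N 1 w u) (-u) = top N 1 w (-u) := by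
    have := h.top_shift hnu (-(tp N 1 w u)) hm'
    rwa [show w + (-(tp N 1 w u)) • -u = top N 1 w u by
      rw [smul_neg, neg_smul, neg_neg]; rfl] at this
  have hlam : tp N 1 (top N 1 w u) (-u) = tp N 1 w u - -(tp N 1 w (-u)) := by
    have h1 : w + tp N 1 w u • u + tp N 1 (top N 1 w u) (-u) • -u = w + tp N 1 w (-u) • -u := htop
    rw [add_assoc, add_left_cancel_iff, smul_neg, smul_neg, ← sub_eq_add_neg, ← sub_smul,
      ← neg_smul] at h1
    have := smul_left_injective ℝ hu h1
    linarith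
  have hval : chordVal N g (top N 1 w u) u =
      ENNReal.ofReal ((φ (tp N 1 w u) - φ (-(tp N 1 w (-u)))) ^ 2 /
        (tp N 1 w u - -(tp N 1 w (-u)))) := by
    rw [chordVal, htop, hlam]
    congr 1
    simp only [hφ, top, smul_neg, neg_smul]
  rw [hval]
  show _ = _ + ∫⁻ t in Ioo _ _, ENNReal.ofReal ((deriv φ t -
    (φ (tp N 1 w u) - φ (-(tp N 1 w (-u)))) / _) ^ 2)
  rw [← interval_identity hK hab, ← lintegral_indicator measurableSet_Ioo]
  refine lintegral_congr_ae (hd.mono fun t ht => ?_)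
  have hdv : deriv φ t = ⟪gr g (w + t • u), u⟫ := by
    rw [inner_gr]
    exact (ht.hasFDerivAt.comp_hasDerivAt t
      (by simpa using ((hasDerivAt_id t).smul_const u).const_add w)).deriv
  have hiff := Set.ext_iff.1 hset t
  show {z | N z < 1}.indicator (fun z => ENNReal.ofReal (⟪gr g z, u⟫ ^ 2)) (w + t • u) = _
  by_cases ht' : t ∈ Ioo (-(tp N 1 w (-u))) (tp N 1 w u)
  · rw [Set.indicator_of_mem ht',
      Set.indicator_of_mem (show w + t • u ∈ {z | N z < 1} from hiff.2 ht'), hdv]
  · rw [Set.indicator_of_notMem ht',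
      Set.indicator_of_notMem (show w + t • u ∉ {z | N z < 1} from fun hh => ht' (hiff.1 hh))]

theorem energy_congr (h : IsNrm N) (hn : 0 < n) {g g' : Vec n → ℝ}
    (he : ∀ x, N x = 1 → g x = g' x) : energy N N2 g = energy N N2 g' := by
  refine lintegral_congr_ae (ae_restrict_of_ae (h.ae_diff.mono fun z hz => ?_))
  have hx : N (unit N z) = 1 := h.norm_unit fun h0 => h.not_diff_zero hn (h0 ▸ hz)
  refine lintegral_congr fun q => iSup_congr fun y => iSup_congr fun hy => ?_
  rw [he _ hx, he y hy.1]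

variable {g : Vec n → ℝ} {K : ℝ≥0}

/-- The chord side at a parameter. -/
noncomputable def chordSide (N : Vec n → ℝ) (g : Vec n → ℝ) (l u : Vec n) : ℝ≥0∞ :=
  ∫⁻ w in slab l 1, {w | Meets N 1 w u}.indicator (fun w => chordVal N g (top N 1 w u) u) w

theorem slice_eq (h : IsNrm N) (l u : Vec n) (hlu : ⟪l, u⟫ = 1) (g : Vec n → ℝ) :
    ∫⁻ z in {z | N z < 1}, ENNReal.ofReal (⟪gr g z, u⟫ ^ 2) =
      ∫⁻ w in slab l 1, ∫⁻ t : ℝ,
        {z | N z < 1}.indicator (fun z => ENNReal.ofReal (⟪gr g z, u⟫ ^ 2)) (w + t • u) := by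
  rw [← lintegral_indicator (isOpen_lt h.continuous continuous_const).measurableSet]
  exact lintegral_lines l u hlu ((((measurable_gr g).inner_const).pow_const 2).ennreal_ofReal.indicator
    (isOpen_lt h.continuous continuous_const).measurableSet)

theorem ae_slice (h : IsNrm N) (l u : Vec n) (hlu : ⟪l, u⟫ = 1) (hg : LipschitzWith K g) :
    ∀ᵐ w : Vec n ∂volume.restrict (slab l 1),
      ∫⁻ t : ℝ, {z | N z < 1}.indicator (fun z => ENNReal.ofReal (⟪gr g z, u⟫ ^ 2)) (w + t • u)
        = {w | Meets N 1 w u}.indicator (fun w => chordVal N g (top N 1 w u) u +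
          ∫⁻ t in Ioo (-(tp N 1 w (-u))) (tp N 1 w u),
            ENNReal.ofReal ((deriv (fun t : ℝ => g (w + t • u)) t -
              (g (w + tp N 1 w u • u) - g (w + (-(tp N 1 w (-u))) • u)) /
                (tp N 1 w u - -(tp N 1 w (-u)))) ^ 2)) w := by
  have hu : u ≠ 0 := by rintro rfl; simp at hlu
  filter_upwards [ae_lines l u hlu (measurableSet_of_differentiableAt ℝ g)
    hg.ae_differentiableAt] with w hw
  by_cases hm : Meets N 1 w u
  · rw [Set.indicator_of_mem (show w ∈ {w | Meets N 1 w u} from hm)]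
    exact h.line_identity hu hm hg hw
  · rw [Set.indicator_of_notMem (show w ∉ {w | Meets N 1 w u} from hm)]
    refine (lintegral_congr fun t => ?_).trans lintegral_zero
    exact Set.indicator_of_notMem (show w + t • u ∉ {z | N z < 1} from fun hh => hm ⟨t, hh⟩) _

theorem chordSide_le (h : IsNrm N) (l u : Vec n) (hlu : ⟪l, u⟫ = 1) (hg : LipschitzWith K g) :
    chordSide N g l u ≤ ∫⁻ z in {z | N z < 1}, ENNReal.ofReal (⟪gr g z, u⟫ ^ 2) := by
  rw [h.slice_eq l u hlu]
  refine lintegral_mono_ae ((h.ae_slice l u hlu hg).mono fun w hw => ?_)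
  rw [hw]
  by_cases hm : w ∈ {w | Meets N 1 w u}
  · rw [Set.indicator_of_mem hm, Set.indicator_of_mem hm]
    exact le_self_add
  · rw [Set.indicator_of_notMem hm, Set.indicator_of_notMem hm]

theorem chordSide_linear (h : IsNrm N) (l u : Vec n) (hlu : ⟪l, u⟫ = 1) (ξ : Vec n) :
    chordSide N (fun z => ⟪ξ, z⟫) l u
      = ∫⁻ z in {z | N z < 1}, ENNReal.ofReal (⟪gr (fun z => ⟪ξ, z⟫) z, u⟫ ^ 2) := by
  have hg : LipschitzWith ‖innerSL ℝ ξ‖₊ (fun z => ⟪ξ, z⟫) := (innerSL ℝ ξ).lipschitz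
  rw [h.slice_eq l u hlu]
  refine lintegral_congr_ae ((h.ae_slice l u hlu hg).mono fun w hw => ?_)
  beta_reduce
  rw [hw]
  have hu : u ≠ 0 := by rintro rfl; simp at hlu
  by_cases hm : w ∈ {w | Meets N 1 w u}
  · rw [Set.indicator_of_mem hm, Set.indicator_of_mem hm]
    obtain ⟨hab, -⟩ := h.chord_eq hu hm
    refine Eq.trans (add_zero _).symm (congrArg _ (Eq.symm ?_))
    refine (lintegral_congr fun t => ?_).trans lintegral_zero
    have hd : HasDerivAt (fun t : ℝ => ⟪ξ, w + t • u⟫) ⟪ξ, u⟫ t := by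
      simpa [inner_add_right, real_inner_smul_right] using
        ((hasDerivAt_id t).mul_const ⟪ξ, u⟫).const_add ⟪ξ, w⟫
    rw [hd.deriv, ← inner_sub_right, add_sub_add_left_eq_sub, ← sub_smul, real_inner_smul_right,
      mul_comm _ ⟪ξ, u⟫, mul_div_assoc, div_self (sub_pos.2 hab).ne', mul_one, sub_self]
    simp
  · rw [Set.indicator_of_notMem hm, Set.indicator_of_notMem hm]

theorem energy_chordSide (h : IsNrm N) (h2 : IsNrm N2) (hn : 0 < n) (hg : Measurable g) :
    energy N N2 g = ∫⁻ q in {q | dual N2 q < 1},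
      chordSide N g ((dual N2 q)⁻¹ • q) (gr (dual N2) q) :=
  h.energy_eq h2 hn hg

theorem dirichlet_eq (h : IsNrm N) (g : Vec n → ℝ) :
    ∫⁻ z in {z | N z < 1}, quad N2 (gr g z) = ∫⁻ q in {q | dual N2 q < 1},
      ∫⁻ z in {z | N z < 1}, ENNReal.ofReal (⟪gr g z, gr (dual N2) q⟫ ^ 2) := by
  refine lintegral_lintegral_swap (Measurable.aemeasurable ?_)
  exact ((((measurable_gr g).comp measurable_fst).inner
    ((measurable_gr (dual N2)).comp measurable_snd)).pow_const 2).ennreal_ofReal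

theorem pairing_one (h2 : IsNrm N2) (hn : 0 < n) {q : Vec n}
    (hq : DifferentiableAt ℝ (dual N2) q) : ⟪(dual N2 q)⁻¹ • q, gr (dual N2) q⟫ = 1 := by
  have hq0 : q ≠ 0 := fun h0 => h2.isNrm_dual.not_diff_zero hn (h0 ▸ hq)
  rw [real_inner_smul_left, real_inner_comm, h2.isNrm_dual.gr_self hq,
    inv_mul_cancel₀ (h2.isNrm_dual.pos q hq0).ne']

/-- The energy is at most the averaged Dirichlet integral. -/
theorem energy_le (h : IsNrm N) (h2 : IsNrm N2) (hn : 0 < n) (hg : LipschitzWith K g) :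
    energy N N2 g ≤ ∫⁻ z in {z | N z < 1}, quad N2 (gr g z) := by
  rw [h.energy_chordSide h2 hn hg.continuous.measurable, h.dirichlet_eq]
  exact lintegral_mono_ae (ae_restrict_of_ae (h2.isNrm_dual.ae_diff.mono fun q hq =>
    h.chordSide_le _ _ (h2.pairing_one hn hq) hg))

theorem gr_linear (ξ z : Vec n) : gr (fun z => ⟪ξ, z⟫) z = ξ := by
  refine ext_inner_right ℝ fun v => ?_
  rw [inner_gr, show (fun z => ⟪ξ, z⟫) = innerSL ℝ ξ from rfl, (innerSL ℝ ξ).fderiv]
  rfl

theorem energy_linear (h : IsNrm N) (h2 : IsNrm N2) (hn : 0 < n) (ξ : Vec n) :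
    energy N N2 (fun z => ⟪ξ, z⟫) = volume {z | N z < 1} * quad N2 ξ := by
  rw [h.energy_chordSide h2 hn (by fun_prop)]
  rw [lintegral_congr_ae (ae_restrict_of_ae (h2.isNrm_dual.ae_diff.mono fun q hq =>
    h.chordSide_linear _ _ (h2.pairing_one hn hq) ξ)), ← h.dirichlet_eq]
  simp only [gr_linear, lintegral_const, Measure.restrict_apply_univ, mul_comm]

/-- At equality the function satisfies midpoint identities along almost every direction. -/
theorem midpoint (h : IsNrm N) (h2 : IsNrm N2) (hn : 0 < n) (hg : LipschitzWith K g)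
    (hfin : energy N N2 g ≠ ⊤)
    (heq : ∫⁻ z in {z | N z < 1}, quad N2 (gr g z) ≤ energy N N2 g) :
    ∀ᵐ q : Vec n ∂volume.restrict {q | dual N2 q < 1}, ∀ (z : Vec n) (s : ℝ), N z < 1 →
      N (z + (2 * s) • gr (dual N2) q) < 1 →
      g z + g (z + (2 * s) • gr (dual N2) q) = 2 * g (z + s • gr (dual N2) q) := by
  have hball : MeasurableSet {z : Vec n | N z < 1} :=
    (isOpen_lt h.continuous continuous_const).measurableSet
  rw [h.energy_chordSide h2 hn hg.continuous.measurable] at hfin heq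
  rw [h.dirichlet_eq] at heq
  have hDm : Measurable fun q : Vec n =>
      ∫⁻ z in {z | N z < 1}, ENNReal.ofReal (⟪gr g z, gr (dual N2) q⟫ ^ 2) := by
    have : Measurable fun p : Vec n × Vec n =>
        ENNReal.ofReal (⟪gr g p.2, gr (dual N2) p.1⟫ ^ 2) :=
      ((((measurable_gr g).comp measurable_snd).inner
        ((measurable_gr (dual N2)).comp measurable_fst)).pow_const 2).ennreal_ofReal
    exact this.lintegral_prod_right'
  have hout := ae_eq_of_ae_le_of_lintegral_le (μ := volume.restrict {q | dual N2 q < 1})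
    (f := fun q => chordSide N g ((dual N2 q)⁻¹ • q) (gr (dual N2) q))
    (ae_restrict_of_ae (h2.isNrm_dual.ae_diff.mono fun q hq =>
      h.chordSide_le _ _ (h2.pairing_one hn hq) hg)) hfin hDm.aemeasurable heq
  filter_upwards [hout, ae_restrict_of_ae h2.isNrm_dual.ae_diff] with q hq hqd
  have hlu := h2.pairing_one hn hqd
  revert hq hlu
  generalize (dual N2 q)⁻¹ • q = l
  generalize gr (dual N2) q = u
  intro hq hlu
  have hu : u ≠ 0 := by rintro rfl; simp at hlu
  have hDfin : ∫⁻ z in {z | N z < 1}, ENNReal.ofReal (⟪gr g z, u⟫ ^ 2) ≠ ⊤ := by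
    refine ne_top_of_le_ne_top (b := ENNReal.ofReal ((K * ‖u‖) ^ 2) * volume {z : Vec n | N z < 1})
      (ENNReal.mul_ne_top ENNReal.ofReal_ne_top (h.volume_lt_ne_top 1)) ?_
    rw [← setLIntegral_const]
    refine lintegral_mono fun z => ENNReal.ofReal_le_ofReal (sq_le_sq.2 ?_)
    rw [abs_of_nonneg (mul_nonneg K.coe_nonneg (norm_nonneg u)), inner_gr]
    calc |fderiv ℝ g z u| ≤ ‖fderiv ℝ g z‖ * ‖u‖ := (fderiv ℝ g z).le_opNorm u
      _ ≤ K * ‖u‖ := by gcongr; exact norm_fderiv_le_of_lipschitz ℝ hg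
  have hLm : Measurable fun w : Vec n => ∫⁻ t : ℝ,
      {z | N z < 1}.indicator (fun z => ENNReal.ofReal (⟪gr g z, u⟫ ^ 2)) (w + t • u) :=
    ((((measurable_gr g).inner_const).pow_const 2).ennreal_ofReal.indicator hball).comp
      (show Measurable fun p : Vec n × ℝ => p.1 + p.2 • u by fun_prop) |>.lintegral_prod_right'
  have hle := h.ae_slice l u hlu hg
  have hin := ae_eq_of_ae_le_of_lintegral_le (μ := volume.restrict (slab l 1))
    (f := fun w => {w | Meets N 1 w u}.indicator (fun w => chordVal N g (top N 1 w u) u) w)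
    (g := fun w => ∫⁻ t : ℝ,
      {z | N z < 1}.indicator (fun z => ENNReal.ofReal (⟪gr g z, u⟫ ^ 2)) (w + t • u))
    (hle.mono fun w hw => by
      beta_reduce
      rw [hw]
      by_cases hm : w ∈ {w | Meets N 1 w u}
      · rw [Set.indicator_of_mem hm, Set.indicator_of_mem hm]; exact le_self_add
      · rw [Set.indicator_of_notMem hm, Set.indicator_of_notMem hm])
    (by
      have : chordSide N g l u ≠ ⊤ := by rw [hq]; exact hDfin
      exact this) hLm.aemeasurable (by rw [← h.slice_eq l u hlu]; exact hq.ge)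
  intro z s hz hzs
  by_contra hne
  set O : Set (Vec n) := {z | N z < 1 ∧ N (z + (2 * s) • u) < 1 ∧
    g z + g (z + (2 * s) • u) ≠ 2 * g (z + s • u)} with hO
  have hgc := hg.continuous
  have hOopen : IsOpen O := (isOpen_lt h.continuous continuous_const).inter
    ((isOpen_lt (h.continuous.comp (by fun_prop)) continuous_const).inter
      (isOpen_ne_fun (by fun_prop) (by fun_prop)))
  have hO0 : volume O = 0 := by
    rw [← setLIntegral_one, ← lintegral_indicator hOopen.measurableSet,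
      lintegral_lines l u hlu (measurable_const.indicator hOopen.measurableSet)]
    refine (lintegral_congr_ae ?_).trans lintegral_zero
    filter_upwards [hin, hle] with w hw1 hw2
    refine (lintegral_congr fun t => ?_).trans lintegral_zero
    refine Set.indicator_of_notMem (fun hmem => ?_) _
    obtain ⟨ht1, ht2, ht3⟩ := hmem
    have hm : w ∈ {w | Meets N 1 w u} := ⟨t, ht1⟩
    rw [hw2, Set.indicator_of_mem hm, Set.indicator_of_mem hm] at hw1
    obtain ⟨hab, hset⟩ := h.chord_eq hu hm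
    have hne' : chordVal N g (top N 1 w u) u ≠ ⊤ := ENNReal.ofReal_ne_top
    have hdef := (ENNReal.add_right_inj hne').1 ((add_zero (chordVal N g (top N 1 w u) u)).trans hw1)
    have hK : LipschitzWith (K * ‖u‖₊) (fun t : ℝ => g (w + t • u)) :=
      LipschitzWith.of_dist_le_mul fun x y => by
        refine (hg.dist_le_mul _ _).trans (le_of_eq ?_)
        rw [dist_add_left, dist_eq_norm, ← sub_smul, norm_smul, NNReal.coe_mul, coe_nnnorm,
          Real.dist_eq, ← Real.norm_eq_abs]
        ring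
    have haff := affine_of_defect hK hab hdef.symm
    have e : ∀ r : ℝ, w + t • u + r • u = w + (t + r) • u := fun r => by rw [add_assoc, ← add_smul]
    rw [e, e] at ht3
    rw [e] at ht2
    have m1 : t ∈ Ioo (-(tp N 1 w (-u))) (tp N 1 w u) := hset ▸ ht1
    have m2 : t + 2 * s ∈ Ioo (-(tp N 1 w (-u))) (tp N 1 w u) := hset ▸ ht2
    have m3 : t + s ∈ Icc (-(tp N 1 w (-u))) (tp N 1 w u) :=
      ⟨by linarith [m1.1, m2.1], by linarith [m1.2, m2.2]⟩
    refine ht3 ?_
    rw [haff t (Ioo_subset_Icc_self m1), haff _ (Ioo_subset_Icc_self m2), haff _ m3]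
    ring
  exact (hOopen.measure_pos volume ⟨z, hz, hzs, hne⟩).ne' hO0

end IsNrm

end Vale.Agent.P084
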