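import Mathlib
import Vale.Agent.P084.Ineq

/-!
Properties of the averaged quadratic form.
-/

open MeasureTheory Set Filter
open scoped ENNReal NNReal RealInnerProductSpace Topology Pointwise

namespace Vale.Agent.P084

variable {n : ℕ}

namespace IsNrm

variable {N N2 : Vec n → ℝ}

theorem convex_lt (h : IsNrm N) (r : ℝ) : Convex ℝ {v : Vec n | N v < r} := by
  refine convex_iff_forall_pos.2 fun x hx y hy a b ha hb hab => ?_
  have hx' : N x < r := hx
  have hy' : N y < r := hy
  show N (a • x + b • y) < r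
  calc N (a • x + b • y) ≤ N (a • x) + N (b • y) := h.tri _ _
    _ = a * N x + b * N y := by rw [h.smul_nonneg ha.le, h.smul_nonneg hb.le]
    _ < a * r + b * r :=
        add_lt_add (mul_lt_mul_of_pos_left hx' ha) (mul_lt_mul_of_pos_left hy' hb)
    _ = r := by rw [← add_mul, hab, one_mul]

theorem null_sphere (h : IsNrm N) : volume {v : Vec n | N v = 1} = 0 := by
  refine measure_mono_null (fun v hv => ?_) ((h.convex_lt 1).addHaar_frontier volume)
  have hv' : N v = 1 := hv
  rw [(isOpen_lt h.continuous continuous_const).frontier_eq]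
  refine ⟨?_, fun hlt : N v < 1 => hlt.ne hv'⟩
  have ht : Tendsto (fun t : ℝ => t • v) (𝓝[<] 1) (𝓝 v) := by
    exact ((continuous_id.smul continuous_const).tendsto' (1 : ℝ) v (one_smul ℝ v)).mono_left
      nhdsWithin_le_nhds
  refine mem_closure_of_tendsto ht ?_
  filter_upwards [Ioo_mem_nhdsLT (zero_lt_one' ℝ)] with t ht
  show N (t • v) < 1
  rw [h.smul_nonneg ht.1.le, hv', mul_one]
  exact ht.2

theorem quad_le (h2 : IsNrm N2) (hn : 0 < n) {ξ : Vec n} {d : ℝ}
    (hd : ∀ v, |⟪ξ, v⟫| ≤ d * N2 v) :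
    quad N2 ξ ≤ ENNReal.ofReal (d ^ 2) * volume {q | dual N2 q < 1} := by
  rw [← setLIntegral_const]
  refine lintegral_mono_ae (ae_restrict_of_ae (h2.isNrm_dual.ae_diff.mono fun q hq => ?_))
  refine ENNReal.ofReal_le_ofReal (sq_le_sq.2 ?_)
  have hq0 : q ≠ 0 := fun h0 => h2.isNrm_dual.not_diff_zero hn (h0 ▸ hq)
  have := hd (gr (dual N2) q)
  rw [h2.gr_dual_norm_eq hq hq0, mul_one] at this
  exact this.trans (le_abs_self d)

theorem quad_ne_top (h2 : IsNrm N2) (hn : 0 < n) (ξ : Vec n) : quad N2 ξ ≠ ⊤ :=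
  ne_top_of_le_ne_top (ENNReal.mul_ne_top ENNReal.ofReal_ne_top (h2.isNrm_dual.volume_lt_ne_top 1))
    (h2.quad_le hn (h2.abs_inner_le ξ))

theorem continuous_quad (h2 : IsNrm N2) (hn : 0 < n) : Continuous (quad N2) := by
  refine continuous_iff_continuousAt.2 fun ξ => ?_
  set M := dual N2 with hM
  have hMc := h2.isNrm_dual.continuous
  refine tendsto_lintegral_filter_of_dominated_convergence
    (fun _ => ENNReal.ofReal ((M ξ + 1) ^ 2))
    (Eventually.of_forall fun η =>
      ((measurable_const.inner (measurable_gr M)).pow_const 2).ennreal_ofReal) ?_ ?_ ?_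
  · filter_upwards [(hMc.tendsto ξ).eventually (eventually_lt_nhds (lt_add_one (M ξ)))] with η hη
    filter_upwards [ae_restrict_of_ae h2.isNrm_dual.ae_diff] with q hq
    have hq0 : q ≠ 0 := fun h0 => h2.isNrm_dual.not_diff_zero hn (h0 ▸ hq)
    refine ENNReal.ofReal_le_ofReal (sq_le_sq.2 ?_)
    have := h2.abs_inner_le η (gr M q)
    rw [h2.gr_dual_norm_eq hq hq0, mul_one] at this
    exact (this.trans hη.le).trans (le_abs_self _)
  · rw [setLIntegral_const]
    exact ENNReal.mul_ne_top ENNReal.ofReal_ne_top (h2.isNrm_dual.volume_lt_ne_top 1)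
  · refine Eventually.of_forall fun q => (ENNReal.continuous_ofReal.comp ?_).tendsto ξ
    fun_prop

theorem quad_parallelogram (a b : Vec n) :
    quad N2 a + quad N2 b
      = 2 * quad N2 ((1 / 2 : ℝ) • (a + b)) + 2 * quad N2 ((1 / 2 : ℝ) • (a - b)) := by
  have hm : ∀ η, Measurable fun q => ENNReal.ofReal (⟪η, gr (dual N2) q⟫ ^ 2) := fun η =>
    ((measurable_const.inner (measurable_gr (dual N2))).pow_const 2).ennreal_ofReal
  simp only [quad]
  rw [← lintegral_add_left (hm a), ← lintegral_const_mul' 2 _ (by simp),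
    ← lintegral_const_mul' 2 _ (by simp), ← lintegral_add_left ((hm _).const_mul 2)]
  refine lintegral_congr fun q => ?_
  rw [two_mul, two_mul, ← ENNReal.ofReal_add (sq_nonneg _) (sq_nonneg _),
    ← ENNReal.ofReal_add (sq_nonneg _) (sq_nonneg _),
    ← ENNReal.ofReal_add (sq_nonneg _) (sq_nonneg _),
    ← ENNReal.ofReal_add (by positivity) (by positivity)]
  congr 1
  simp only [real_inner_smul_left, inner_add_left, inner_sub_left]
  ring

/-- A lower bound from integration by parts. -/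
theorem le_quad (h2 : IsNrm N2) (hn : 0 < n) {ζ e : Vec n} (hc : 0 < ⟪ζ, e⟫) :
    ENNReal.ofReal ((⟪ζ, e⟫ * (1 / 2) ^ (n + 1) / N2 e) ^ 2) * volume {q | dual N2 q < 1}
      ≤ quad N2 ζ := by
  set M := dual N2 with hM
  have hMn := h2.isNrm_dual
  have he : 0 < N2 e := h2.pos e (by rintro rfl; simp at hc)
  set B := {q : Vec n | M q < 1} with hB
  have hBm : MeasurableSet B := (isOpen_lt hMn.continuous continuous_const).measurableSet
  have hBfin : volume B ≠ ⊤ := hMn.volume_lt_ne_top 1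
  set ψ : Vec n → ℝ := fun q => max (1 - M q) 0 with hψ
  obtain ⟨K, hK⟩ := hMn.exists_lipschitz
  have hψL : LipschitzWith K ψ := LipschitzWith.of_dist_le_mul fun a b => by
    refine le_trans ?_ (hK.dist_le_mul a b)
    rw [Real.dist_eq, Real.dist_eq]
    refine (abs_max_sub_max_le_abs _ _ _).trans ?_
    rw [sub_sub_sub_cancel_left, abs_sub_comm]
  have hψc : HasCompactSupport ψ :=
    HasCompactSupport.intro (hMn.isCompact_le 1) fun x hx => max_eq_right (by
      have : 1 < M x := not_le.1 hx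
      linarith)
  have hlin : LipschitzWith ‖innerSL ℝ e‖₊ (fun q : Vec n => ⟪e, q⟫) := (innerSL ℝ e).lipschitz
  have hibp := hlin.integral_lineDeriv_mul_eq (μ := volume) hψL hψc ζ
  have hl : ∀ x, lineDeriv ℝ (fun q : Vec n => ⟪e, q⟫) x ζ = ⟪ζ, e⟫ := fun x => by
    have hd : HasFDerivAt (fun q : Vec n => ⟪e, q⟫) (innerSL ℝ e) x := (innerSL ℝ e).hasFDerivAt
    rw [hd.differentiableAt.lineDeriv_eq_fderiv, hd.fderiv]
    exact real_inner_comm ζ e
  have hr : ∀ᵐ x : Vec n, lineDeriv ℝ ψ x (-ζ) * ⟪e, x⟫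
      = B.indicator (fun x => ⟪gr M x, ζ⟫ * ⟪e, x⟫) x := by
    filter_upwards [hMn.ae_diff,
      (measure_eq_zero_iff_ae_notMem.1 hMn.null_sphere : ∀ᵐ x : Vec n, x ∉ {v | M v = 1})]
      with x hx hx1
    rcases lt_or_gt_of_ne (show M x ≠ 1 from hx1) with hlt | hgt
    · have hev : ψ =ᶠ[𝓝 x] fun y => 1 - M y :=
        ((hMn.continuous.tendsto x).eventually (eventually_lt_nhds hlt)).mono fun y hy =>
          max_eq_left (by linarith)
      rw [Set.indicator_of_mem (show x ∈ B from hlt), hev.lineDeriv_eq,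
        ((hx.const_sub 1)).lineDeriv_eq_fderiv, fderiv_const_sub, inner_gr]
      simp [hM]
    · have hev : ψ =ᶠ[𝓝 x] fun _ => 0 :=
        ((hMn.continuous.tendsto x).eventually (eventually_gt_nhds hgt)).mono fun y hy =>
          max_eq_right (by linarith)
      rw [Set.indicator_of_notMem (show x ∉ B from fun hh : M x < 1 => absurd hgt (not_lt.2 hh.le)),
        hev.lineDeriv_eq, (differentiableAt_const _).lineDeriv_eq_fderiv, fderiv_fun_const]
      simp
  simp only [hl] at hibp
  rw [integral_const_mul, integral_congr_ae hr, integral_indicator hBm] at hibp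
  have hψint : Integrable ψ := hψL.continuous.integrable_of_hasCompactSupport hψc
  have hS : (1 / 2 : ℝ) ^ (n + 1) * volume.real B ≤ ∫ q, ψ q := by
    set S := {q : Vec n | M q < 1 / 2} with hS'
    have hSm : MeasurableSet S := (isOpen_lt hMn.continuous continuous_const).measurableSet
    have hsmul : S = (1 / 2 : ℝ) • B := by
      ext q
      rw [mem_smul_set_iff_inv_smul_mem₀ (by norm_num : (1 / 2 : ℝ) ≠ 0)]
      show M q < 1 / 2 ↔ M ((1 / 2 : ℝ)⁻¹ • q) < 1
      rw [show M ((1 / 2 : ℝ)⁻¹ • q) = (1 / 2 : ℝ)⁻¹ * M q from hMn.smul_nonneg (by norm_num) q]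
      constructor <;> intro <;> linarith
    have hvol : volume.real S = (1 / 2 : ℝ) ^ n * volume.real B := by
      rw [Measure.real, hsmul, Measure.addHaar_smul, finrank_euclideanSpace_fin, ENNReal.toReal_mul,
        ENNReal.toReal_ofReal (abs_nonneg _), abs_of_nonneg (by positivity), Measure.real]
    calc (1 / 2 : ℝ) ^ (n + 1) * volume.real B = ∫ _q in S, (1 / 2 : ℝ) := by
          rw [setIntegral_const, smul_eq_mul, hvol, pow_succ]; ring
      _ ≤ ∫ q in S, ψ q := by
          refine setIntegral_mono_on (integrableOn_const (hMn.volume_lt_ne_top _))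
            hψint.integrableOn hSm fun q (hq : M q < 1 / 2) => ?_
          exact le_trans (by linarith) (le_max_left _ _)
      _ ≤ ∫ q, ψ q := setIntegral_le_integral hψint (Eventually.of_forall fun q => le_max_right _ _)
  have hbd : ∀ᵐ x ∂volume.restrict B, |⟪gr M x, ζ⟫| ≤ dual N2 ζ := by
    filter_upwards [ae_restrict_of_ae hMn.ae_diff] with x hx
    have hx0 : x ≠ 0 := fun h0 => hMn.not_diff_zero hn (h0 ▸ hx)
    have := h2.abs_inner_le ζ (gr M x)
    rwa [h2.gr_dual_norm_eq hx hx0, mul_one, real_inner_comm] at this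
  have hmeas : Measurable fun x => ⟪gr M x, ζ⟫ := (measurable_gr M).inner_const
  have hint2 : IntegrableOn (fun x => ⟪gr M x, ζ⟫ ^ 2) B :=
    IntegrableOn.of_bound hBfin.lt_top (hmeas.pow_const 2).aestronglyMeasurable (dual N2 ζ ^ 2)
      (hbd.mono fun x hx => by
        rw [Real.norm_eq_abs, abs_pow]
        exact pow_le_pow_left₀ (abs_nonneg _) hx 2)
  have hquad : quad N2 ζ = ENNReal.ofReal (∫ x in B, ⟪gr M x, ζ⟫ ^ 2) := by
    rw [ofReal_integral_eq_lintegral_ofReal hint2 (Eventually.of_forall fun _ => sq_nonneg _)]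
    simp only [quad, real_inner_comm ζ]
    rfl
  set c := ⟪ζ, e⟫ * (1 / 2) ^ (n + 1) / N2 e with hcdef
  have hc0 : 0 < c := by positivity
  have hint1 : IntegrableOn (fun x => ⟪gr M x, ζ⟫ * ⟪e, x⟫) B :=
    IntegrableOn.of_bound hBfin.lt_top
      (hmeas.mul ((innerSL ℝ e).continuous.measurable)).aestronglyMeasurable (dual N2 ζ * N2 e)
      ((hbd.and (ae_restrict_mem hBm)).mono fun x ⟨hx, hxB⟩ => by
        rw [Real.norm_eq_abs, abs_mul]
        refine mul_le_mul hx ?_ (abs_nonneg _) (h2.dual_nonneg ζ)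
        rw [real_inner_comm]
        exact (h2.abs_inner_le x e).trans (mul_le_of_le_one_left he.le (le_of_lt hxB)))
  have hmain : ⟪ζ, e⟫ * ((1 / 2 : ℝ) ^ (n + 1) * volume.real B)
      ≤ ∫ x in B, N2 e * ((⟪gr M x, ζ⟫ ^ 2 / c + c) / 2) := by
    refine (mul_le_mul_of_nonneg_left hS hc.le).trans (hibp.le.trans ?_)
    refine integral_mono_ae hint1 ((((hint2.div_const c).add (integrableOn_const hBfin)).div_const
      2).const_mul _) ((ae_restrict_mem hBm).mono fun x hxB => ?_)
    set a := ⟪gr M x, ζ⟫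
    have h1 : |⟪e, x⟫| ≤ N2 e := by
      rw [real_inner_comm]
      exact (h2.abs_inner_le x e).trans (mul_le_of_le_one_left he.le (le_of_lt hxB))
    have h2' : |a| ≤ (a ^ 2 / c + c) / 2 := by
      rw [le_div_iff₀ two_pos, div_add' _ _ _ hc0.ne', le_div_iff₀ hc0]
      nlinarith [sq_nonneg (|a| - c), sq_abs a]
    calc a * ⟪e, x⟫ ≤ |a| * |⟪e, x⟫| := (le_abs_self _).trans (abs_mul _ _).le
      _ ≤ ((a ^ 2 / c + c) / 2) * N2 e := mul_le_mul h2' h1 (abs_nonneg _) (by positivity)
      _ = _ := mul_comm _ _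
  rw [integral_const_mul, integral_div, integral_add (hint2.div_const c) (integrableOn_const hBfin),
    integral_div, setIntegral_const, smul_eq_mul] at hmain
  have hfinal : c ^ 2 * volume.real B ≤ ∫ x in B, ⟪gr M x, ζ⟫ ^ 2 := by
    set Q := ∫ x in B, ⟪gr M x, ζ⟫ ^ 2
    have e1 : ⟪ζ, e⟫ * ((1 / 2 : ℝ) ^ (n + 1) * volume.real B) = N2 e * (c * volume.real B) := by
      rw [hcdef]; field_simp
    rw [e1] at hmain
    have h3 := le_of_mul_le_mul_left hmain he
    have h4 : c * volume.real B ≤ Q / c := by linarith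
    rw [le_div_iff₀ hc0] at h4
    linarith
  rw [hquad]
  refine le_trans (le_of_eq ?_) (ENNReal.ofReal_le_ofReal hfinal)
  rw [ENNReal.ofReal_mul (sq_nonneg c), Measure.real, ENNReal.ofReal_toReal hBfin]

theorem quad_eq_zero (h2 : IsNrm N2) (hn : 0 < n) {ζ : Vec n} (hz : quad N2 ζ = 0) : ζ = 0 := by
  by_contra hne
  have hc : 0 < ⟪ζ, ζ⟫ := by rw [real_inner_self_eq_norm_sq]; positivity
  have h1 := h2.le_quad hn hc
  rw [hz, nonpos_iff_eq_zero, mul_eq_zero, ENNReal.ofReal_eq_zero] at h1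
  rcases h1 with h1 | h1
  · have := h2.pos ζ hne
    have : 0 < (⟪ζ, ζ⟫ * (1 / 2) ^ (n + 1) / N2 ζ) ^ 2 := by positivity
    linarith
  · exact (h2.isNrm_dual.volume_lt_pos one_pos).ne' h1

end IsNrm

end Vale.Agent.P084
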