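import Mathlib
import Vale.Agent.P084.Energy

/-!
An isometry of spheres and its homogeneous extension; transport of the energy.
-/

open MeasureTheory Set Filter
open scoped ENNReal NNReal RealInnerProductSpace Topology InnerProduct

namespace Vale.Agent.P084

variable {n m : ℕ}

/-- An isometry between the spheres of `N` and `N'`, with its inverse. -/
structure SphIso (N : Vec n → ℝ) (N' : Vec m → ℝ) (f : Vec n → Vec m) (g : Vec m → Vec n) :
    Prop where
  hN : IsNrm N
  hN' : IsNrm N'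
  map : ∀ x, N x = 1 → N' (f x) = 1
  map' : ∀ y, N' y = 1 → N (g y) = 1
  left : ∀ x, N x = 1 → g (f x) = x
  right : ∀ y, N' y = 1 → f (g y) = y
  iso : ∀ x y, N x = 1 → N y = 1 → N' (f x - f y) = N (x - y)

/-- The homogeneous extension. -/
noncomputable def hext (N : Vec n → ℝ) (f : Vec n → Vec m) (z : Vec n) : Vec m :=
  N z • f (unit N z)

namespace SphIso

section general

variable {N : Vec n → ℝ} {N' : Vec m → ℝ} {f : Vec n → Vec m} {g : Vec m → Vec n}

theorem symm (h : SphIso N N' f g) : SphIso N' N g f where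
  hN := h.hN'
  hN' := h.hN
  map := h.map'
  map' := h.map
  left := h.right
  right := h.left
  iso a b ha hb := by
    rw [← h.iso _ _ (h.map' a ha) (h.map' b hb), h.right a ha, h.right b hb]

theorem hext_zero (h : SphIso N N' f g) : hext N f 0 = 0 := by
  rw [hext, h.hN.map_zero, zero_smul]

theorem norm_hext (h : SphIso N N' f g) (z : Vec n) : N' (hext N f z) = N z := by
  rcases eq_or_ne z 0 with rfl | hz
  · rw [h.hext_zero, h.hN'.map_zero, h.hN.map_zero]
  · rw [hext, h.hN'.smul_nonneg (h.hN.nonneg z), h.map _ (h.hN.norm_unit hz), mul_one]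

theorem hext_smul (h : SphIso N N' f g) {c : ℝ} (hc : 0 < c) (z : Vec n) :
    hext N f (c • z) = c • hext N f z := by
  rw [hext, hext, h.hN.smul_nonneg hc.le, h.hN.unit_smul hc, smul_smul]

theorem hext_eq (h : SphIso N N' f g) {x : Vec n} (hx : N x = 1) : hext N f x = f x := by
  simp [hext, unit, hx]

theorem unit_hext (h : SphIso N N' f g) {z : Vec n} (hz : z ≠ 0) :
    unit N' (hext N f z) = f (unit N z) := by
  rw [unit, h.norm_hext, hext, inv_smul_smul₀ (h.hN.pos z hz).ne']

theorem hext_hext (h : SphIso N N' f g) (z : Vec n) : hext N' g (hext N f z) = z := by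
  rcases eq_or_ne z 0 with rfl | hz
  · rw [h.hext_zero, h.symm.hext_zero]
  · rw [hext, h.norm_hext, h.unit_hext hz, h.left _ (h.hN.norm_unit hz), unit,
      smul_inv_smul₀ (h.hN.pos z hz).ne']

theorem hext_injective (h : SphIso N N' f g) : Function.Injective (hext N f) :=
  fun a b hab => by rw [← h.hext_hext a, hab, h.hext_hext]

theorem hext_bound (h : SphIso N N' f g) (a b : Vec n) :
    N' (hext N f a - hext N f b) ≤ 3 * N (a - b) := by
  have hab := h.hN.nonneg (a - b)
  rcases eq_or_ne a 0 with rfl | ha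
  · rw [h.hext_zero, zero_sub, zero_sub, h.hN'.map_neg, h.norm_hext, h.hN.map_neg]
    linarith [h.hN.nonneg b]
  rcases eq_or_ne b 0 with rfl | hb
  · rw [h.hext_zero, sub_zero, sub_zero, h.norm_hext]
    linarith [h.hN.nonneg a]
  set p := N a with hp
  set q := N b with hq
  have hua := h.hN.norm_unit ha
  have hub := h.hN.norm_unit hb
  have hd : |p - q| ≤ N (a - b) := h.hN.abs_sub_le a b
  have e : hext N f a - hext N f b
      = (p - q) • f (unit N a) + q • (f (unit N a) - f (unit N b)) := by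
    rw [hext, hext, sub_smul, smul_sub]
    abel
  have e2 : q • (unit N a - unit N b) = (q - p) • unit N a + (a - b) := by
    rw [smul_sub, sub_smul]
    simp only [unit]
    rw [hp, hq]
    simp only [smul_inv_smul₀ (h.hN.pos a ha).ne', smul_inv_smul₀ (h.hN.pos b hb).ne']
    abel
  rw [e]
  refine (h.hN'.tri _ _).trans ?_
  rw [h.hN'.smul, h.map _ hua, h.hN'.smul_nonneg (h.hN.nonneg b), h.iso _ _ hua hub,
    ← h.hN.smul_nonneg (h.hN.nonneg b), ← hq, e2]
  have := (h.hN.tri ((q - p) • unit N a) (a - b)).trans_eq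
    (by rw [h.hN.smul, hua, mul_one, abs_sub_comm])
  linarith

theorem exists_lipschitz (h : SphIso N N' f g) : ∃ C : ℝ≥0, LipschitzWith C (hext N f) := by
  obtain ⟨C, hC⟩ := h.hN.exists_upper
  obtain ⟨c, hc, hl⟩ := h.hN'.exists_lower
  refine ⟨(3 * C / c : ℝ).toNNReal, LipschitzWith.of_dist_le_mul fun a b => ?_⟩
  rw [dist_eq_norm, dist_eq_norm, Real.coe_toNNReal _ (by positivity), div_mul_eq_mul_div,
    le_div_iff₀ hc]
  have := hl (hext N f a - hext N f b)
  have := h.hext_bound a b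
  have := hC (a - b)
  linarith

/-- The dimensions agree. -/
theorem dim_le (h : SphIso N N' f g) : m ≤ n := by
  obtain ⟨C, hC⟩ := h.exists_lipschitz
  have hr : range (hext N f) = univ :=
    eq_univ_of_forall fun y => ⟨hext N' g y, h.symm.hext_hext y⟩
  have := hC.dimH_range_le
  rw [hr, Real.dimH_univ_eq_finrank, Real.dimH_univ_eq_finrank, finrank_euclideanSpace_fin,
    finrank_euclideanSpace_fin] at this
  exact_mod_cast this

theorem dim_eq (h : SphIso N N' f g) : m = n :=
  le_antisymm h.dim_le h.symm.dim_le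

end general

/-- Lipschitz images of null sets are null. -/
theorem _root_.Vale.Agent.P084.lipschitz_image_null {G : Vec n → Vec n} {C : ℝ≥0}
    (hG : LipschitzWith C G) {s : Set (Vec n)} (hs : volume s = 0) : volume (G '' s) = 0 := by
  set d : ℝ := (Module.finrank ℝ (Vec n) : ℝ) with hd
  have hd0 : 0 ≤ d := Nat.cast_nonneg _
  set H : Measure (Vec n) := μH[d] with hH
  have : H.IsAddHaarMeasure := MeasureTheory.isAddHaarMeasure_hausdorffMeasure
  have h1 : H ≪ volume := Measure.absolutelyContinuous_isAddHaarMeasure H volume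
  have h2 : (volume : Measure (Vec n)) ≪ H :=
    Measure.absolutelyContinuous_isAddHaarMeasure volume H
  refine h2 (le_antisymm ((hG.hausdorffMeasure_image_le hd0 s).trans_eq ?_) zero_le')
  rw [← hH, h1 hs, mul_zero]

variable {N N' : Vec n → ℝ} {f g : Vec n → Vec n}

theorem ae_comp (h : SphIso N N' f g) {P : Vec n → Prop} (hP : ∀ᵐ y, P y) :
    ∀ᵐ z, P (hext N f z) := by
  obtain ⟨C, hC⟩ := h.symm.exists_lipschitz
  rw [ae_iff] at hP ⊢
  exact measure_mono_null (t := hext N' g '' {y | ¬ P y}) (fun z hz => ⟨hext N f z, hz, h.hext_hext z⟩)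
    (lipschitz_image_null hC hP)

/-- The points at which everything is differentiable. -/
structure Good (N N' : Vec n → ℝ) (f g : Vec n → Vec n) (z : Vec n) : Prop where
  dN : DifferentiableAt ℝ N z
  dN' : DifferentiableAt ℝ N' (hext N f z)
  dF : DifferentiableAt ℝ (hext N f) z
  dG : DifferentiableAt ℝ (hext N' g) (hext N f z)

theorem ae_good (h : SphIso N N' f g) : ∀ᵐ z, Good N N' f g z := by
  obtain ⟨C, hC⟩ := h.exists_lipschitz
  obtain ⟨D, hD⟩ := h.symm.exists_lipschitz
  filter_upwards [h.hN.ae_diff, h.ae_comp h.hN'.ae_diff, hC.ae_differentiableAt,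
    h.ae_comp hD.ae_differentiableAt] with z h1 h2 h3 h4
  exact ⟨h1, h2, h3, h4⟩

theorem exists_inverse (h : SphIso N N' f g) {z : Vec n} (hz : Good N N' f g z) :
    ∃ M : Vec n →L[ℝ] Vec n, (∀ v, M (fderiv ℝ (hext N f) z v) = v) ∧
      ∀ w, fderiv ℝ (hext N f) z (M w) = w := by
  set L := fderiv ℝ (hext N f) z
  set M := fderiv ℝ (hext N' g) (hext N f z)
  have h1 : HasFDerivAt (hext N' g ∘ hext N f) (M.comp L) z :=
    hz.dG.hasFDerivAt.comp z hz.dF.hasFDerivAt
  have h2 : HasFDerivAt (hext N' g ∘ hext N f) (ContinuousLinearMap.id ℝ (Vec n)) z := by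
    rw [show hext N' g ∘ hext N f = id from funext h.hext_hext]
    exact hasFDerivAt_id z
  have hML : ∀ v, M (L v) = v := fun v => DFunLike.congr_fun (h1.unique h2) v
  have hinj : Function.Injective (L : Vec n →ₗ[ℝ] Vec n) := fun a b hab => by
    rw [← hML a, ← hML b]
    exact congrArg M hab
  refine ⟨M, hML, fun w => ?_⟩
  obtain ⟨v, rfl⟩ := (LinearMap.injective_iff_surjective.1 hinj) w
  exact congrArg L (hML v)

theorem deriv_self (h : SphIso N N' f g) (hn : 0 < n) {z : Vec n} (hz : Good N N' f g z) :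
    fderiv ℝ (hext N f) z z = hext N f z := by
  have hl : HasDerivAt (fun t : ℝ => t • z) z 1 := by
    simpa using (hasDerivAt_id (1 : ℝ)).smul_const z
  have hF : HasFDerivAt (hext N f) (fderiv ℝ (hext N f) z) ((1 : ℝ) • z) := by
    simpa using hz.dF.hasFDerivAt
  have h1 := hF.comp_hasDerivAt 1 hl
  have h2 : HasDerivAt (fun t : ℝ => t • hext N f z) (hext N f z) 1 := by
    simpa using (hasDerivAt_id (1 : ℝ)).smul_const (hext N f z)
  refine h1.unique (h2.congr_of_eventuallyEq ?_)
  filter_upwards [eventually_gt_nhds (zero_lt_one' ℝ)] with t ht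
  exact h.hext_smul ht z

theorem hasFDerivAt_smul (h : SphIso N N' f g) {z : Vec n} (hz : Good N N' f g z) {c : ℝ}
    (hc : 0 < c) : HasFDerivAt (hext N f) (fderiv ℝ (hext N f) z) (c • z) := by
  have e : hext N f = fun v => c • hext N f (c⁻¹ • v) := funext fun v => by
    rw [h.hext_smul (inv_pos.2 hc), smul_inv_smul₀ hc.ne']
  have h1 : HasFDerivAt (hext N f) (fderiv ℝ (hext N f) z) (c⁻¹ • (c • z)) := by
    rw [inv_smul_smul₀ hc.ne']; exact hz.dF.hasFDerivAt
  have h2 := (h1.comp (c • z)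
    ((hasFDerivAt_id (c • z)).const_smul c⁻¹)).const_smul c
  refine (h2.congr_fderiv ?_).congr_of_eventuallyEq (Eventually.of_forall fun v => congrFun e v)
  ext v
  simp [smul_smul, mul_inv_cancel₀ hc.ne']

theorem chain (h : SphIso N N' f g) {z : Vec n} (hz : Good N N' f g z) (v : Vec n) :
    ⟪gr N' (hext N f z), fderiv ℝ (hext N f) z v⟫ = ⟪gr N z, v⟫ := by
  have h1 := hz.dN'.hasFDerivAt.comp z hz.dF.hasFDerivAt
  rw [show N' ∘ hext N f = N from funext h.norm_hext] at h1
  rw [inner_gr, inner_gr, hz.dN.hasFDerivAt.unique h1]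
  rfl

variable {N2 N2' : Vec n → ℝ}

theorem tangent (h : SphIso N N' f g) (h2 : IsNrm N2) (h2' : IsNrm N2') (hn : 0 < n)
    (hiso : ∀ x y, N x = 1 → N y = 1 → N2' (f x - f y) = N2 (x - y))
    {z : Vec n} (hz : Good N N' f g z) {v : Vec n} (hv : ⟪gr N z, v⟫ = 0) :
    N2' (fderiv ℝ (hext N f) z v) = N2 v := by
  have hz0 : z ≠ 0 := fun h0 => h.hN.not_diff_zero hn (h0 ▸ hz.dN)
  have hc0 : (0 : ℝ) < (N z)⁻¹ := inv_pos.2 (h.hN.pos z hz0)
  set x := unit N z with hxdef
  have hx : N x = 1 := h.hN.norm_unit hz0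
  have hdx : DifferentiableAt ℝ N x := (h.hN.diff_smul hz.dN hc0).1
  have hjx : gr N x = gr N z := h.hN.gr_unit hz0
  have hFx : HasFDerivAt (hext N f) (fderiv ℝ (hext N f) z) x := h.hasFDerivAt_smul hz hc0
  set L := fderiv ℝ (hext N f) z with hL
  set c : ℝ → Vec n := fun t => unit N (x + t • v) with hc
  have hcd : HasDerivAt c v 0 := by
    have hl : HasDerivAt (fun t : ℝ => x + t • v) v 0 := by
      simpa using ((hasDerivAt_id (0 : ℝ)).smul_const v).const_add x
    have hF : HasFDerivAt N (fderiv ℝ N x) (x + (0 : ℝ) • v) := by simpa using hdx.hasFDerivAt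
    have hN' : HasDerivAt (fun t : ℝ => N (x + t • v)) 0 0 := by
      have := hF.comp_hasDerivAt 0 hl
      rwa [← inner_gr, hjx, hv] at this
    have hne : N (x + (0 : ℝ) • v) ≠ 0 := by simp [hx]
    have := (hN'.inv hne).smul hl
    exact this.congr_deriv (by simp [hx])
  have hc0' : c 0 = x := by simp [hc, unit, hx]
  have hFc : HasDerivAt (fun t => hext N f (c t)) (L v) 0 := by
    have : HasFDerivAt (hext N f) L (c 0) := by rw [hc0']; exact hFx
    exact this.comp_hasDerivAt 0 hcd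
  have hlim1 : Tendsto (fun t : ℝ => t⁻¹ • (c t - x)) (𝓝[>] 0) (𝓝 v) := by
    simpa [hc0'] using hcd.tendsto_slope_zero_right
  have hlim2 : Tendsto (fun t : ℝ => t⁻¹ • (hext N f (c t) - hext N f x)) (𝓝[>] 0) (𝓝 (L v)) := by
    simpa [hc0'] using hFc.tendsto_slope_zero_right
  refine tendsto_nhds_unique ((h2'.continuous.tendsto _).comp hlim2) ?_
  refine ((h2.continuous.tendsto _).comp hlim1).congr' ?_
  have hcont : ContinuousAt (fun t : ℝ => x + t • v) 0 := by fun_prop
  have hx0 : x + (0 : ℝ) • v ≠ 0 := by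
    rw [zero_smul, add_zero]; intro h0; rw [h0, h.hN.map_zero] at hx; exact zero_ne_one hx
  filter_upwards [nhdsWithin_le_nhds (hcont.eventually_ne hx0), self_mem_nhdsWithin] with t ht ht0
  have hct : N (c t) = 1 := h.hN.norm_unit ht
  have hti : (0 : ℝ) ≤ t⁻¹ := inv_nonneg.2 (mem_Ioi.1 ht0).le
  simp only [Function.comp_apply]
  rw [h2.smul_nonneg hti, h2'.smul_nonneg hti, h.hext_eq hct, h.hext_eq hx, hiso _ _ hct hx]

theorem transport_point (h : SphIso N N' f g) (h2 : IsNrm N2) (h2' : IsNrm N2') (hn : 0 < n)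
    (hiso : ∀ x y, N x = 1 → N y = 1 → N2' (f x - f y) = N2 (x - y))
    (g' : Vec n → ℝ) {z : Vec n} (hz : Good N N' f g z) :
    ∫⁻ q in dom N N2 z, partnerVal N N2 (g' ∘ f) (unit N z) q
      ≤ ENNReal.ofReal |(fderiv ℝ (hext N f) z).det| *
        ∫⁻ q in dom N' N2' (hext N f z), partnerVal N' N2' g' (unit N' (hext N f z)) q := by
  have hz0 : z ≠ 0 := fun h0 => h.hN.not_diff_zero hn (h0 ▸ hz.dN)
  have hc0 : (0 : ℝ) < (N z)⁻¹ := inv_pos.2 (h.hN.pos z hz0)
  obtain ⟨M, hML, hLM⟩ := h.exists_inverse hz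
  have hLz := h.deriv_self hn hz
  have hch := h.chain hz
  have htan : ∀ v, ⟪gr N z, v⟫ = 0 → N2' (fderiv ℝ (hext N f) z v) = N2 v :=
    fun v hv => h.tangent h2 h2' hn hiso hz hv
  have hFx : HasFDerivAt (hext N f) (fderiv ℝ (hext N f) z) (unit N z) :=
    h.hasFDerivAt_smul hz hc0
  rw [h.unit_hext hz0]
  set L := fderiv ℝ (hext N f) z with hL
  set x := unit N z with hxdef
  have hx : N x = 1 := h.hN.norm_unit hz0
  set j := gr N z with hj
  set j' := gr N' (hext N f z) with hj'
  set A := ContinuousLinearMap.adjoint L with hA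
  have hAi : ∀ a v, ⟪A a, v⟫ = ⟪a, L v⟫ := fun a v => L.adjoint_inner_left v a
  have hLx : L x = f x := by
    rw [hxdef, unit, map_smul, hLz, hext, inv_smul_smul₀ (h.hN.pos z hz0).ne']
    rfl
  have hinj : Function.Injective A := fun a b hab => ext_inner_right ℝ fun w => by
    rw [← hLM w, ← hAi, ← hAi, hab]
  have hdom : ∀ a, A a ∈ dom N N2 z ↔ a ∈ dom N' N2' (hext N f z) := by
    intro a
    simp only [dom, mem_inter_iff, slab, mem_ofPred_eq, openT, ← hxdef, h.unit_hext hz0, ← hj, ← hj']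
    refine and_congr (by rw [real_inner_comm (A a) x, hAi, hLx, real_inner_comm]) ⟨?_, ?_⟩
    · intro hq v hv hv0
      have hv' : ⟪j, M v⟫ = 0 := by rw [← hch, hLM, hv]
      have hMv : M v ≠ 0 := fun h0 => hv0 (by rw [← hLM v, h0, map_zero])
      have := hq (M v) hv' hMv
      rwa [hAi, hLM, ← htan _ hv', hLM] at this
    · intro hq v hv hv0
      have hv' : ⟪j', L v⟫ = 0 := by rw [hch, hv]
      have hLv : L v ≠ 0 := fun h0 => hv0 (by rw [← hML v, h0, map_zero])
      have := hq (L v) hv' hLv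
      rwa [htan _ hv, ← hAi] at this
  have himg : A '' dom N' N2' (hext N f z) = dom N N2 z := by
    refine Subset.antisymm (image_subset_iff.2 fun a ha => (hdom a).2 ha) fun q hq => ?_
    have e : A (ContinuousLinearMap.adjoint M q) = q := ext_inner_right ℝ fun v => by
      rw [hAi, M.adjoint_inner_left, hML]
    exact ⟨_, (hdom _).1 (by rw [e]; exact hq), e⟩
  have hj'0 : j' ≠ 0 := by
    intro h0
    have := h.hN'.gr_self hz.dN'
    rw [← hj', h0, inner_zero_left, h.norm_hext] at this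
    exact (h.hN.pos z hz0).ne this
  have hmeas : MeasurableSet (dom N' N2' (hext N f z)) := by
    refine (measurableSet_slab _ _).inter ?_
    have e : openT N2' j' = {q | Meets (dual N2') 1 q j'} :=
      Set.ext fun q => (h2'.meets_iff_openT hj'0 q).symm
    rw [e]
    exact h2'.isNrm_dual.measurableSet_meets 1 j'
  have hdet : A.det = L.det := by
    rw [ContinuousLinearMap.det, ContinuousLinearMap.det,
      ← LinearMap.det_toMatrix (EuclideanSpace.basisFun (Fin n) ℝ).toBasis,
      ← LinearMap.det_toMatrix (EuclideanSpace.basisFun (Fin n) ℝ).toBasis (L : Vec n →ₗ[ℝ] Vec n)]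
    rw [show (A : Vec n →ₗ[ℝ] Vec n) = LinearMap.adjoint (L : Vec n →ₗ[ℝ] Vec n) from rfl,
      LinearMap.toMatrix_adjoint, Matrix.det_conjTranspose]
    rfl
  rw [← himg, lintegral_image_eq_lintegral_abs_det_fderiv_mul volume hmeas
    (fun a _ => A.hasFDerivAt.hasFDerivWithinAt) hinj.injOn, hdet,
    lintegral_const_mul' _ _ (by simp)]
  refine mul_le_mul_right (lintegral_mono fun a => iSup₂_le fun y hy => ?_) _
  obtain ⟨hy1, hyx, hsub⟩ := hy
  have hval : (g' (f x) - g' (f y)) ^ 2 / N2' (f x - f y)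
      = ((g' ∘ f) x - (g' ∘ f) y) ^ 2 / N2 (x - y) := by rw [hiso x y hx hy1]; rfl
  refine le_iSup₂_of_le (f y) ?_ (by rw [hval])
  refine ⟨h.map y hy1, fun he => hyx ?_, fun ε hε => ?_⟩
  · rw [← h.left y hy1, he, h.left x hx]
  obtain ⟨C, hC⟩ := h.symm.exists_lipschitz
  set δ := ε / ((‖a‖ + 1) * (C + 1)) with hδ
  have hδ0 : 0 < δ := by positivity
  have ev : ∀ᶠ w in 𝓝[{w | N w = 1}] x,
      ⟪A a, w - x⟫ - δ * ‖w - x‖ ≤ N2 (w - y) - N2 (x - y) ∧
      ‖hext N f w - hext N f x - L (w - x)‖ ≤ δ * ‖w - x‖ :=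
    (hsub δ hδ0).and (nhdsWithin_le_nhds (hFx.isLittleO.def hδ0))
  have htend : Tendsto (hext N' g) (𝓝[{w | N' w = 1}] (f x)) (𝓝[{w | N w = 1}] x) := by
    refine tendsto_nhdsWithin_iff.2 ⟨?_, ?_⟩
    · have := (hC.continuous.tendsto (f x)).mono_left (nhdsWithin_le_nhds (s := {w | N' w = 1}))
      rwa [h.symm.hext_eq (h.map x hx), h.left x hx] at this
    · filter_upwards [self_mem_nhdsWithin] with w hw
      show N (hext N' g w) = 1
      rw [h.symm.norm_hext]
      exact hw
  filter_upwards [htend.eventually ev, self_mem_nhdsWithin] with w' hw hwS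
  have hwS' : N' w' = 1 := hwS
  set w := hext N' g w' with hwdef
  have hwN : N w = 1 := by rw [hwdef, h.symm.norm_hext, hwS']
  have hFw : hext N f w = w' := by rw [hwdef, h.symm.hext_hext]
  obtain ⟨hw1, hw2⟩ := hw
  rw [hFw, h.hext_eq hx] at hw2
  have hfw : f w = w' := by rw [← h.hext_eq hwN, hFw]
  rw [show w' - f y = f w - f y by rw [hfw], hiso w y hwN hy1, hiso x y hx hy1]
  rw [hAi] at hw1
  have h3 : ⟪a, w' - f x⟫ = ⟪a, L (w - x)⟫ + ⟪a, w' - f x - L (w - x)⟫ := by
    rw [← inner_add_right, add_sub_cancel]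
  have h4 := (real_inner_le_norm a (w' - f x - L (w - x))).trans
    (mul_le_mul_of_nonneg_left hw2 (norm_nonneg a))
  have h5 : ‖w - x‖ ≤ C * ‖w' - f x‖ := by
    have := hC.dist_le_mul w' (f x)
    rwa [h.symm.hext_eq (h.map x hx), h.left x hx, ← hwdef, dist_eq_norm, dist_eq_norm] at this
  have h6 : (‖a‖ + 1) * δ * ‖w - x‖ ≤ ε * ‖w' - f x‖ := by
    calc (‖a‖ + 1) * δ * ‖w - x‖ ≤ (‖a‖ + 1) * δ * ((C + 1) * ‖w' - f x‖) := by
          gcongr
          linarith [norm_nonneg (w' - f x)]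
      _ = ε * ‖w' - f x‖ := by rw [hδ]; field_simp
  linarith

theorem transport (h : SphIso N N' f g) (h2 : IsNrm N2) (h2' : IsNrm N2') (hn : 0 < n)
    (hiso : ∀ x y, N x = 1 → N y = 1 → N2' (f x - f y) = N2 (x - y)) (g' : Vec n → ℝ) :
    energy N N2 (g' ∘ f) ≤ energy N' N2' g' := by
  set bad := toMeasurable volume {z | ¬ Good N N' f g z} with hbad
  have hb0 : volume bad = 0 := by
    rw [hbad, measure_toMeasurable]
    exact ae_iff.1 h.ae_good
  set s := {z | N z < 1} \ bad with hs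
  have hsm : MeasurableSet s :=
    (isOpen_lt h.hN.continuous continuous_const).measurableSet.diff (measurableSet_toMeasurable _ _)
  have hgood : ∀ z ∈ s, Good N N' f g z := fun z hz => by
    by_contra hng
    exact hz.2 (subset_toMeasurable _ _ hng)
  have hse : (s : Set (Vec n)) =ᵐ[volume] {z | N z < 1} := sdiff_null_ae_eq_self hb0
  rw [energy, ← setLIntegral_congr hse]
  calc ∫⁻ z in s, ∫⁻ q in dom N N2 z, partnerVal N N2 (g' ∘ f) (unit N z) q
      ≤ ∫⁻ z in s, ENNReal.ofReal |(fderiv ℝ (hext N f) z).det| *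
        ∫⁻ q in dom N' N2' (hext N f z), partnerVal N' N2' g' (unit N' (hext N f z)) q :=
        setLIntegral_mono' hsm fun z hz => h.transport_point h2 h2' hn hiso g' (hgood z hz)
    _ = ∫⁻ y in hext N f '' s, ∫⁻ q in dom N' N2' y, partnerVal N' N2' g' (unit N' y) q :=
        (lintegral_image_eq_lintegral_abs_det_fderiv_mul volume hsm
          (fun z hz => (hgood z hz).dF.hasFDerivAt.hasFDerivWithinAt) h.hext_injective.injOn
          fun y => ∫⁻ q in dom N' N2' y, partnerVal N' N2' g' (unit N' y) q).symm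
    _ ≤ energy N' N2' g' := lintegral_mono_set (image_subset_iff.2 fun z hz => by
        show N' (hext N f z) < 1
        rw [h.norm_hext]
        exact hz.1)

end SphIso

end Vale.Agent.P084
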