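import Mathlib
import Vale.Agent.P084.Quad
import Vale.Agent.P084.Transport

/-!
Rigidity of maximisers and linearity of isometries of spheres.
-/

open MeasureTheory Set Filter
open scoped ENNReal NNReal RealInnerProductSpace Topology

namespace Vale.Agent.P084

variable {n : ℕ}

/-- A Lipschitz function with derivative zero almost everywhere on an open convex set is constant
there. -/
theorem const_of_ae_fderiv_zero {F : Vec n → ℝ} {K : ℝ≥0} (hF : LipschitzWith K F)
    {C : Set (Vec n)} (hCo : IsOpen C) (hCc : Convex ℝ C)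
    (h0 : ∀ᵐ z : Vec n, z ∈ C → HasFDerivAt F (0 : Vec n →L[ℝ] ℝ) z)
    {a b : Vec n} (ha : a ∈ C) (hb : b ∈ C) : F a = F b := by
  by_contra hne
  set v := b - a with hv
  have hv0 : v ≠ 0 := sub_ne_zero.2 fun hh => hne (by rw [hh])
  set l := (⟪v, v⟫)⁻¹ • v with hl
  have hlv : ⟪l, v⟫ = 1 := by
    rw [hl, real_inner_smul_left, inv_mul_cancel₀ (by simpa using hv0)]
  set O := {z : Vec n | z ∈ C ∧ z + v ∈ C ∧ F z ≠ F (z + v)} with hO
  have hOo : IsOpen O := hCo.inter ((hCo.preimage (by fun_prop)).inter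
    (isOpen_ne_fun hF.continuous (hF.continuous.comp (by fun_prop))))
  have hae : ∀ᵐ z : Vec n, z ∈ C → fderiv ℝ F z = 0 ∧ DifferentiableAt ℝ F z :=
    h0.mono fun z hz hzC => ⟨(hz hzC).fderiv, (hz hzC).differentiableAt⟩
  have hmeas : MeasurableSet {z : Vec n | z ∈ C → fderiv ℝ F z = 0 ∧ DifferentiableAt ℝ F z} := by
    have e : {z : Vec n | z ∈ C → fderiv ℝ F z = 0 ∧ DifferentiableAt ℝ F z}
        = Cᶜ ∪ ((fun z => fderiv ℝ F z) ⁻¹' {0} ∩ {z | DifferentiableAt ℝ F z}) := by
      ext z; by_cases hz : z ∈ C <;> simp [hz]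
    rw [e]
    exact hCo.measurableSet.compl.union (((measurable_fderiv ℝ F) (measurableSet_singleton 0)).inter
      (measurableSet_of_differentiableAt ℝ F))
  have hnull : volume O = 0 := by
    rw [← setLIntegral_one, ← lintegral_indicator hOo.measurableSet,
      lintegral_lines l v hlv (measurable_const.indicator hOo.measurableSet)]
    refine (lintegral_congr_ae ?_).trans lintegral_zero
    filter_upwards [ae_lines l v hlv hmeas hae] with w hw
    refine (lintegral_congr fun t => ?_).trans lintegral_zero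
    refine Set.indicator_of_notMem (fun hmem => ?_) _
    obtain ⟨h1, h2, h3⟩ := hmem
    refine h3 ?_
    set φ : ℝ → ℝ := fun s => F (w + s • v) with hφ
    have hφL : LipschitzWith (K * ‖v‖₊) φ := LipschitzWith.of_dist_le_mul fun x y => by
      refine (hF.dist_le_mul _ _).trans (le_of_eq ?_)
      rw [dist_add_left, dist_eq_norm, ← sub_smul, norm_smul, NNReal.coe_mul, coe_nnnorm,
        Real.dist_eq, ← Real.norm_eq_abs]
      ring
    have hderiv : ∀ᵐ s : ℝ, s ∈ uIoc t (t + 1) → deriv φ s = 0 := by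
      filter_upwards [hw] with s hs hst
      rw [uIoc_of_le (by linarith)] at hst
      have hmemC : w + s • v ∈ C := by
        have hin := hCc h1 h2 (show 0 ≤ 1 - (s - t) by linarith [hst.2]) (show 0 ≤ s - t by
          linarith [hst.1]) (by ring)
        convert hin using 1
        module
      obtain ⟨h5, h6⟩ := hs hmemC
      have := h6.hasFDerivAt.comp_hasDerivAt s
        (show HasDerivAt (fun s : ℝ => w + s • v) v s by
          simpa using ((hasDerivAt_id s).smul_const v).const_add w)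
      rw [h5] at this
      exact this.deriv
    have := (hφL.lipschitzOnWith.absolutelyContinuousOnInterval (a := t) (b := t + 1)
      ).integral_deriv_eq_sub
    rw [intervalIntegral.integral_congr_ae hderiv, intervalIntegral.integral_zero] at this
    have e2 : w + t • v + v = w + (t + 1) • v := by rw [add_smul, one_smul, add_assoc]
    rw [e2]
    simp only [hφ] at this
    linarith
  refine (hOo.measure_pos volume ⟨a, ha, ?_, ?_⟩).ne' hnull
  · rwa [hv, add_sub_cancel]
  · rwa [hv, add_sub_cancel]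

namespace IsNrm

variable {N : Vec n → ℝ}

/-- Extension of a function from the sphere with the same Lipschitz constant. -/
theorem exists_ext (h : IsNrm N) (hn : 0 < n) {g : Vec n → ℝ}
    (hg : ∀ a b, N a = 1 → N b = 1 → g a - g b ≤ N (a - b)) :
    ∃ gt : Vec n → ℝ, (∀ a b, gt a - gt b ≤ N (a - b)) ∧ ∀ x, N x = 1 → gt x = g x := by
  set S := {x : Vec n | N x = 1} with hS
  have hne : S.Nonempty := by
    have h0 : EuclideanSpace.single (⟨0, hn⟩ : Fin n) (1 : ℝ) ≠ 0 := by simp
    exact ⟨_, h.norm_unit h0⟩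
  set gt : Vec n → ℝ := fun z => sInf ((fun x => g x + N (z - x)) '' S) with hgt
  have hbdd : ∀ z, BddBelow ((fun x => g x + N (z - x)) '' S) := fun z => by
    obtain ⟨x0, hx0⟩ := hne
    refine ⟨g x0 - N (z - x0), ?_⟩
    rintro _ ⟨x, hx, rfl⟩
    have h1 := hg x0 x hx0 hx
    have h2 := h.tri (x0 - z) (z - x)
    rw [sub_add_sub_cancel, ← h.map_neg (x0 - z), neg_sub] at h2
    show g x0 - N (z - x0) ≤ g x + N (z - x)
    linarith
  refine ⟨gt, fun a b => ?_, fun x hx => le_antisymm ?_ ?_⟩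
  · rw [sub_le_iff_le_add']
    refine le_of_sub_nonneg ?_
    have : gt a - N (a - b) ≤ gt b := by
      refine le_csInf (hne.image _) ?_
      rintro _ ⟨x, hx, rfl⟩
      have h1 : gt a ≤ g x + N (a - x) := csInf_le (hbdd a) ⟨x, hx, rfl⟩
      have h2 := h.tri (a - b) (b - x)
      rw [sub_add_sub_cancel] at h2
      linarith
    linarith
  · exact (csInf_le (hbdd x) ⟨x, hx, rfl⟩).trans (by simp [h.map_zero])
  · refine le_csInf (hne.image _) ?_
    rintro _ ⟨y, hy, rfl⟩
    have := hg x y hx hy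
    show g x ≤ g y + N (x - y)
    linarith

theorem lipschitz_of_le (h : IsNrm N) {g : Vec n → ℝ} (hg : ∀ a b, g a - g b ≤ N (a - b)) :
    ∃ K, LipschitzWith K g := by
  obtain ⟨C, hC⟩ := h.exists_upper
  refine ⟨C, LipschitzWith.of_dist_le_mul fun a b => ?_⟩
  rw [Real.dist_eq, dist_eq_norm]
  have h1 := (hg a b).trans (hC _)
  have h2 := (hg b a).trans (hC _)
  rw [norm_sub_rev] at h2
  exact abs_le.2 ⟨by linarith, h1⟩

theorem dual_gr_lip (h : IsNrm N) {g : Vec n → ℝ} (hg : ∀ a b, g a - g b ≤ N (a - b))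
    (z : Vec n) : dual N (gr g z) ≤ 1 := by
  refine h.dual_le zero_le_one fun v => ?_
  rw [one_mul, inner_gr]
  by_cases hd : DifferentiableAt ℝ g z
  · have hline : HasDerivAt (fun t : ℝ => g (z + t • v)) (fderiv ℝ g z v) 0 := by
      have hl : HasDerivAt (fun t : ℝ => z + t • v) v 0 := by
        simpa using ((hasDerivAt_id (0 : ℝ)).smul_const v).const_add z
      have hF : HasFDerivAt g (fderiv ℝ g z) (z + (0 : ℝ) • v) := by simpa using hd.hasFDerivAt
      exact hF.comp_hasDerivAt 0 hl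
    refine le_of_tendsto hline.tendsto_slope_zero_right ?_
    filter_upwards [self_mem_nhdsWithin] with t ht
    simp only [zero_add, zero_smul, add_zero, smul_eq_mul]
    rw [inv_mul_le_iff₀ (mem_Ioi.1 ht)]
    have := hg (z + t • v) z
    rwa [add_sub_cancel_left, h.smul_nonneg (mem_Ioi.1 ht).le] at this
  · rw [fderiv_zero_of_not_differentiableAt hd]
    exact h.nonneg v

theorem exists_attain_sphere (h : IsNrm N) (hn : 0 < n) (q : Vec n) :
    ∃ x, N x = 1 ∧ ⟪q, x⟫ = dual N q := by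
  obtain ⟨v, hv, he⟩ := h.exists_attain q
  rcases eq_or_ne v 0 with rfl | hv0
  · rw [inner_zero_right] at he
    have h0 : EuclideanSpace.single (⟨0, hn⟩ : Fin n) (1 : ℝ) ≠ 0 := by simp
    refine ⟨_, h.norm_unit h0, le_antisymm ?_ ?_⟩
    · have := h.inner_le q (unit N (EuclideanSpace.single (⟨0, hn⟩ : Fin n) (1 : ℝ)))
      rwa [h.norm_unit h0, mul_one] at this
    · have := (abs_le.1 (h.abs_inner_le q (unit N (EuclideanSpace.single (⟨0, hn⟩ : Fin n) (1 : ℝ))))).1
      rw [h.norm_unit h0, mul_one, ← he, neg_zero] at this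
      rw [← he]
      exact this
  · refine ⟨unit N v, h.norm_unit hv0, le_antisymm ?_ ?_⟩
    · have := h.inner_le q (unit N v)
      rwa [h.norm_unit hv0, mul_one] at this
    · rw [unit, real_inner_smul_right, he]
      exact le_mul_of_one_le_left (h.dual_nonneg q) ((one_le_inv₀ (h.pos v hv0)).2 hv)

variable {N2 : Vec n → ℝ}

theorem exists_max (h : IsNrm N) (h2 : IsNrm N2) (hn : 0 < n) :
    ∃ ξ, dual N ξ ≤ 1 ∧ ∀ η, dual N η ≤ 1 → quad N2 η ≤ quad N2 ξ := by
  obtain ⟨ξ, hξ, hmax⟩ := (h.isNrm_dual.isCompact_le 1).exists_isMaxOn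
    ⟨0, show dual N 0 ≤ 1 by rw [h.isNrm_dual.map_zero]; exact zero_le_one⟩
    (h2.continuous_quad hn).continuousOn
  exact ⟨ξ, hξ, fun η hη => hmax hη⟩

end IsNrm

namespace SphIso

variable {N N' N2 N2' : Vec n → ℝ} {f g : Vec n → Vec n}

/-- The chain of inequalities for one functional. -/
theorem exists_pullback (h : SphIso N N' f g) (h2 : IsNrm N2) (h2' : IsNrm N2') (hn : 0 < n)
    (hiso : ∀ x y, N x = 1 → N y = 1 → N2' (f x - f y) = N2 (x - y))
    {ξ : Vec n} (hξ : dual N ξ ≤ 1) :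
    ∃ gt : Vec n → ℝ, (∀ a b, gt a - gt b ≤ N' (a - b)) ∧ (∀ y, N' y = 1 → gt y = ⟪ξ, g y⟫) ∧
      volume {z | N z < 1} * quad N2 ξ ≤ energy N' N2' gt := by
  obtain ⟨gt, hgt1, hgt2⟩ := h.hN'.exists_ext hn (g := fun y => ⟪ξ, g y⟫) fun a b ha hb => by
    rw [← inner_sub_right]
    refine ((h.hN.inner_le ξ _).trans (mul_le_of_le_one_left (h.hN.nonneg _) hξ)).trans (le_of_eq ?_)
    exact h.symm.iso a b ha hb
  refine ⟨gt, hgt1, hgt2, ?_⟩
  rw [← h.hN.energy_linear h2 hn ξ]
  refine le_trans (le_of_eq ?_) (h.transport h2 h2' hn hiso gt)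
  refine h.hN.energy_congr hn fun x hx => ?_
  rw [Function.comp_apply, hgt2 _ (h.map x hx), h.left x hx]

theorem max_le (h : SphIso N N' f g) (h2 : IsNrm N2) (h2' : IsNrm N2') (hn : 0 < n)
    (hiso : ∀ x y, N x = 1 → N y = 1 → N2' (f x - f y) = N2 (x - y))
    {ξ ξ' : Vec n} (hξ : dual N ξ ≤ 1) (hmax' : ∀ η, dual N' η ≤ 1 → quad N2' η ≤ quad N2' ξ') :
    volume {z | N z < 1} * quad N2 ξ ≤ volume {z | N' z < 1} * quad N2' ξ' := by
  obtain ⟨gt, hgt1, -, hle⟩ := h.exists_pullback h2 h2' hn hiso hξ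
  obtain ⟨K, hK⟩ := h.hN'.lipschitz_of_le hgt1
  refine hle.trans ((h.hN'.energy_le h2' hn hK).trans ?_)
  rw [mul_comm, ← setLIntegral_const]
  exact lintegral_mono fun z => hmax' _ (h.hN'.dual_gr_lip hgt1 z)

/-- A maximiser is carried to a linear functional. -/
theorem rigid (h : SphIso N N' f g) (h2 : IsNrm N2) (h2' : IsNrm N2') (hn : 0 < n)
    (hiso : ∀ x y, N x = 1 → N y = 1 → N2' (f x - f y) = N2 (x - y))
    {ξ : Vec n} (hξ : dual N ξ ≤ 1) (hmax : ∀ η, dual N η ≤ 1 → quad N2 η ≤ quad N2 ξ) :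
    ∃ η : Vec n, ∀ x, N x = 1 → ⟪η, f x⟫ = ⟪ξ, x⟫ := by
  obtain ⟨ξ', hξ', hmax'⟩ := h.hN'.exists_max h2' hn
  have hiso' : ∀ x y, N' x = 1 → N' y = 1 → N2 (g x - g y) = N2' (x - y) := fun a b ha hb => by
    rw [← hiso _ _ (h.map' a ha) (h.map' b hb), h.right a ha, h.right b hb]
  have hback : volume {z | N' z < 1} * quad N2' ξ' ≤ volume {z | N z < 1} * quad N2 ξ :=
    h.symm.max_le h2' h2 hn hiso' hξ' hmax
  obtain ⟨gt, hgt1, hgt2, hle⟩ := h.exists_pullback h2 h2' hn hiso hξ
  obtain ⟨K, hK⟩ := h.hN'.lipschitz_of_le hgt1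
  set B := {z : Vec n | N' z < 1} with hB
  set mx := quad N2' ξ' with hmx
  have hBo : IsOpen B := isOpen_lt h.hN'.continuous continuous_const
  have hle1 : ∀ z, quad N2' (gr gt z) ≤ mx := fun z => hmax' _ (h.hN'.dual_gr_lip hgt1 z)
  have hconst : ∫⁻ _z in B, mx = volume B * mx := by rw [setLIntegral_const, mul_comm]
  have hDle : ∫⁻ z in B, quad N2' (gr gt z) ≤ volume B * mx := hconst ▸ lintegral_mono hle1
  have hfinE : energy N' N2' gt ≠ ⊤ :=
    ne_top_of_le_ne_top (ENNReal.mul_ne_top (h.hN'.volume_lt_ne_top 1) (h2'.quad_ne_top hn ξ'))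
      ((h.hN'.energy_le h2' hn hK).trans hDle)
  have heqE : ∫⁻ z in B, quad N2' (gr gt z) ≤ energy N' N2' gt := hDle.trans (hback.trans hle)
  have hmid := h.hN'.midpoint h2' hn hK hfinE heqE
  have hmaxae : ∀ᵐ z : Vec n, z ∈ B → quad N2' (gr gt z) = mx := by
    refine (ae_restrict_iff' hBo.measurableSet).1 ?_
    exact ae_eq_of_ae_le_of_lintegral_le (μ := volume.restrict B)
      (f := fun z => quad N2' (gr gt z)) (g := fun _ => mx) (Eventually.of_forall hle1)
      (ne_top_of_le_ne_top (ENNReal.mul_ne_top (h.hN'.volume_lt_ne_top 1) (h2'.quad_ne_top hn ξ'))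
        hDle) aemeasurable_const
      (by rw [hconst]; exact (hback.trans hle).trans (h.hN'.energy_le h2' hn hK))
  have hmxfin : mx ≠ ⊤ := h2'.quad_ne_top hn ξ'
  -- the directional derivative along each admissible direction is constant
  have hdir : ∀ u : Vec n, (∀ (z : Vec n) (s : ℝ), N' z < 1 → N' (z + (2 * s) • u) < 1 →
      gt z + gt (z + (2 * s) • u) = 2 * gt (z + s • u)) →
      ∀ z1 z2, z1 ∈ B → z2 ∈ B → DifferentiableAt ℝ gt z1 → DifferentiableAt ℝ gt z2 →
        ⟪gr gt z1, u⟫ = ⟪gr gt z2, u⟫ := by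
    intro u hu z1 z2 hz1 hz2 hd1 hd2
    have hshift : ∀ s : ℝ, ∀ a ∈ B, a + (2 * s) • u ∈ B → ∀ b ∈ B, b + (2 * s) • u ∈ B →
        gt (a + (2 * s) • u) - gt a = gt (b + (2 * s) • u) - gt b := by
      intro s a ha ha' b hb hb'
      set d : Vec n → ℝ := fun z => gt (z + (2 * s) • u) - gt z with hd
      have hdL : LipschitzWith (K + K) d := LipschitzWith.of_dist_le_mul fun x y => by
        have e1 := hK.dist_le_mul (x + (2 * s) • u) (y + (2 * s) • u)
        have e2 := hK.dist_le_mul x y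
        rw [dist_add_right] at e1
        rw [Real.dist_eq] at e1 e2 ⊢
        rw [NNReal.coe_add, add_mul]
        calc |d x - d y| = |(gt (x + (2 * s) • u) - gt (y + (2 * s) • u)) - (gt x - gt y)| := by
              rw [hd]; congr 1; ring
          _ ≤ _ := (abs_sub _ _).trans (add_le_add e1 e2)
      refine const_of_ae_fderiv_zero hdL (C := B ∩ (fun z => z + (2 * s) • u) ⁻¹' B)
        (hBo.inter (hBo.preimage (by fun_prop)))
        ((h.hN'.convex_lt 1).inter ((h.hN'.convex_lt 1).translate_preimage_left _))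
        ?_ ⟨ha, ha'⟩ ⟨hb, hb'⟩
      have hq := fun v : Vec n =>
        (measurePreserving_add_right (volume : Measure (Vec n)) v).quasiMeasurePreserving.ae
          (hK.ae_differentiableAt.and hmaxae)
      filter_upwards [hK.ae_differentiableAt, hmaxae, hq (s • u), hq ((2 * s) • u)]
        with z k1 k2 ⟨k3, k4⟩ ⟨k5, k6⟩
      rintro ⟨hzB, hzB'⟩
      have hzm : z + s • u ∈ B := by
        have := (h.hN'.convex_lt 1) hzB hzB' (show (0 : ℝ) ≤ 1 / 2 by norm_num)
          (show (0 : ℝ) ≤ 1 / 2 by norm_num) (by norm_num)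
        convert this using 1
        rw [smul_add, ← add_assoc, ← add_smul, smul_smul, show (1 / 2 : ℝ) + 1 / 2 = 1 by norm_num,
          one_smul, show (1 / 2 : ℝ) * (2 * s) = s by ring]
      have hA : HasFDerivAt gt (fderiv ℝ gt z) z := k1.hasFDerivAt
      have hsh : ∀ v : Vec n, HasFDerivAt (fun y : Vec n => y + v)
          (ContinuousLinearMap.id ℝ (Vec n)) z := fun v => (hasFDerivAt_id z).add_const v
      have hM : HasFDerivAt (fun y => gt (y + s • u)) (fderiv ℝ gt (z + s • u)) z := by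
        have := k3.hasFDerivAt.comp z (hsh (s • u))
        rwa [ContinuousLinearMap.comp_id] at this
      have hC : HasFDerivAt (fun y => gt (y + (2 * s) • u)) (fderiv ℝ gt (z + (2 * s) • u)) z := by
        have := k5.hasFDerivAt.comp z (hsh ((2 * s) • u))
        rwa [ContinuousLinearMap.comp_id] at this
      have hev : (fun y => gt y + gt (y + (2 * s) • u)) =ᶠ[𝓝 z] fun y => 2 * gt (y + s • u) := by
        filter_upwards [hBo.mem_nhds hzB, (hBo.preimage (show Continuous fun y : Vec n =>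
          y + (2 * s) • u by fun_prop)).mem_nhds hzB'] with y hy hy'
        exact hu y s hy hy'
      have hder : fderiv ℝ gt z + fderiv ℝ gt (z + (2 * s) • u)
          = (2 : ℝ) • fderiv ℝ gt (z + s • u) :=
        (hA.add hC).unique ((hM.const_mul 2).congr_of_eventuallyEq hev)
      have hgr : gr gt z + gr gt (z + (2 * s) • u) = (2 : ℝ) • gr gt (z + s • u) := by
        refine ext_inner_right ℝ fun v => ?_
        rw [inner_add_left, real_inner_smul_left, inner_gr, inner_gr, inner_gr,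
          ← ContinuousLinearMap.add_apply, hder, smul_apply, smul_eq_mul]
      have hzero : gr gt z - gr gt (z + (2 * s) • u) = 0 := by
        have hp := IsNrm.quad_parallelogram (N2 := N2') (gr gt z) (gr gt (z + (2 * s) • u))
        rw [hgr, smul_smul, one_div_mul_cancel (two_ne_zero' ℝ), one_smul, k2 hzB, k6 hzB',
          k4 hzm, two_mul mx] at hp
        nth_rewrite 1 [← add_zero (mx + mx)] at hp
        have h0 := (ENNReal.add_right_inj (by simp [hmxfin])).1 hp
        have := h2'.quad_eq_zero hn ((mul_eq_zero.1 h0.symm).resolve_left two_ne_zero)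
        rwa [smul_eq_zero_iff_right (by norm_num : (1 / 2 : ℝ) ≠ 0)] at this
      have hee : fderiv ℝ gt (z + (2 * s) • u) = fderiv ℝ gt z := by
        refine ContinuousLinearMap.ext fun v => ?_
        rw [← inner_gr, ← inner_gr, sub_eq_zero.1 hzero]
      have := hC.sub hA
      rwa [hee, sub_self] at this
    have hlim : ∀ z ∈ B, DifferentiableAt ℝ gt z →
        Tendsto (fun t : ℝ => t⁻¹ • (gt (z + t • u) - gt z)) (𝓝[>] 0) (𝓝 ⟪gr gt z, u⟫) ∧
        ∀ᶠ t in 𝓝[>] (0 : ℝ), z + t • u ∈ B := by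
      intro z hz hd
      have hl : HasDerivAt (fun t : ℝ => z + t • u) u 0 := by
        simpa using ((hasDerivAt_id (0 : ℝ)).smul_const u).const_add z
      have hF : HasFDerivAt gt (fderiv ℝ gt z) (z + (0 : ℝ) • u) := by simpa using hd.hasFDerivAt
      have := (hF.comp_hasDerivAt 0 hl).tendsto_slope_zero_right
      simp only [Function.comp_apply, zero_add, zero_smul, add_zero] at this
      refine ⟨by rw [inner_gr]; exact this, ?_⟩
      refine nhdsWithin_le_nhds (hl.continuousAt.preimage_mem_nhds ?_)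
      rw [zero_smul, add_zero]
      exact hBo.mem_nhds hz
    obtain ⟨l1, e1⟩ := hlim z1 hz1 hd1
    obtain ⟨l2, e2⟩ := hlim z2 hz2 hd2
    refine tendsto_nhds_unique l1 (l2.congr' ?_)
    filter_upwards [e1, e2] with t ht1 ht2
    have := hshift (t / 2) z1 hz1 (by rwa [mul_div_cancel₀ t two_ne_zero]) z2 hz2
      (by rwa [mul_div_cancel₀ t two_ne_zero])
    rw [mul_div_cancel₀ t two_ne_zero] at this
    rw [this]
  -- the gradient is constant
  have hgrconst : ∀ z1 z2, z1 ∈ B → z2 ∈ B → DifferentiableAt ℝ gt z1 → DifferentiableAt ℝ gt z2 →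
      gr gt z1 = gr gt z2 := by
    intro z1 z2 hz1 hz2 hd1 hd2
    refine sub_eq_zero.1 (h2'.quad_eq_zero hn ?_)
    refine (lintegral_congr_ae (hmid.mono fun q hq => ?_)).trans lintegral_zero
    rw [inner_sub_left, hdir _ hq z1 z2 hz1 hz2 hd1 hd2, sub_self]
    simp
  obtain ⟨z0, hz0B, hz0d⟩ : ∃ z0, z0 ∈ B ∧ DifferentiableAt ℝ gt z0 := by
    have hpos : 0 < volume B := h.hN'.volume_lt_pos one_pos
    obtain ⟨z, hz, hz'⟩ := Measure.exists_mem_of_measure_ne_zero_of_ae hpos.ne'
      (ae_restrict_of_ae (s := B) hK.ae_differentiableAt)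
    exact ⟨z, hz, hz'⟩
  set η := gr gt z0 with hη
  set c := gt 0 with hc
  have h0B : (0 : Vec n) ∈ B := by
    show N' 0 < 1
    rw [h.hN'.map_zero]; exact one_pos
  have haff : ∀ z ∈ B, gt z = ⟪η, z⟫ + c := by
    intro z hz
    have hL : LipschitzWith (K + ‖innerSL ℝ η‖₊) (fun z => gt z - ⟪η, z⟫) :=
      hK.sub (innerSL ℝ η).lipschitz
    have := const_of_ae_fderiv_zero hL hBo (h.hN'.convex_lt 1) (hK.ae_differentiableAt.mono
      fun y hy hyB => ?_) hz h0B
    · simp only [inner_zero_right, sub_zero] at this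
      linarith
    · have h1 : HasFDerivAt (fun z => ⟪η, z⟫) (innerSL ℝ η) y := (innerSL ℝ η).hasFDerivAt
      have h2 := hy.hasFDerivAt.sub h1
      have e : fderiv ℝ gt y = innerSL ℝ η := ContinuousLinearMap.ext fun v => by
        rw [← inner_gr, hgrconst y z0 hyB hz0B hy hz0d]
        rfl
      rwa [e, sub_self] at h2
  have hS : ∀ y, N' y = 1 → ⟪η, y⟫ + c = ⟪ξ, g y⟫ := by
    intro y hy
    rw [← hgt2 y hy]
    have hgc : Continuous fun t : ℝ => gt (t • y) := hK.continuous.comp (by fun_prop)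
    have hlin : Continuous fun t : ℝ => ⟪η, t • y⟫ + c := by fun_prop
    have l1 := ((hgc.tendsto' 1 (gt y) (by rw [one_smul]))).mono_left
      (nhdsWithin_le_nhds (s := Iio (1 : ℝ)))
    have l2 := ((hlin.tendsto' 1 (⟪η, y⟫ + c) (by rw [one_smul]))).mono_left
      (nhdsWithin_le_nhds (s := Iio (1 : ℝ)))
    refine tendsto_nhds_unique (l2.congr' ?_) l1
    filter_upwards [Ioo_mem_nhdsLT (zero_lt_one' ℝ)] with t ht
    refine (haff _ ?_).symm
    show N' (t • y) < 1
    rw [h.hN'.smul_nonneg ht.1.le, hy, mul_one]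
    exact ht.2
  obtain ⟨x1, hx1, hx1'⟩ := h.hN.exists_attain_sphere hn ξ
  obtain ⟨y1, hy1, hy1'⟩ := h.hN'.exists_attain_sphere hn η
  have hc0 : c = 0 := by
    have a1 := hS _ (h.map x1 hx1)
    rw [h.left x1 hx1, hx1'] at a1
    have a2 := hS _ (h.map (-x1) (by rw [h.hN.map_neg, hx1]))
    rw [h.left _ (by rw [h.hN.map_neg, hx1]), inner_neg_right, hx1'] at a2
    have b1 := hS y1 hy1
    rw [hy1'] at b1
    have b2 := hS (-y1) (by rw [h.hN'.map_neg, hy1])
    rw [inner_neg_right, hy1'] at b2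
    have c1 := h.hN.abs_inner_le ξ (g y1)
    have c2 := h.hN.abs_inner_le ξ (g (-y1))
    rw [h.map' y1 hy1, mul_one, abs_le] at c1
    rw [h.map' (-y1) (by rw [h.hN'.map_neg, hy1]), mul_one, abs_le] at c2
    have d1 := h.hN'.abs_inner_le η (f x1)
    have d2 := h.hN'.abs_inner_le η (f (-x1))
    rw [h.map x1 hx1, mul_one, abs_le] at d1
    rw [h.map (-x1) (by rw [h.hN.map_neg, hx1]), mul_one, abs_le] at d2
    linarith
  refine ⟨η, fun x hx => ?_⟩
  have := hS _ (h.map x hx)
  rwa [hc0, add_zero, h.left x hx] at this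

end SphIso

end Vale.Agent.P084
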