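import Mathlib
import Vale.Agent.P084.Rigid

/-!
Tingley's problem in finite dimensions.
-/

open MeasureTheory Set Filter
open scoped ENNReal NNReal RealInnerProductSpace Topology

namespace Vale.Agent.P084

variable {n : ℕ}

theorem IsNrm.add_abs {N : Vec n → ℝ} (h : IsNrm N) {K : ℝ} (hK : 0 ≤ K) {ι : Type*} [Fintype ι]
    (v : ι → Vec n) : IsNrm fun z => N z + K * ∑ i, |⟪v i, z⟫| where
  tri a b := by
    have h1 := h.tri a b
    have h2 : ∑ i, |⟪v i, a + b⟫| ≤ ∑ i, |⟪v i, a⟫| + ∑ i, |⟪v i, b⟫| := by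
      rw [← Finset.sum_add_distrib]
      exact Finset.sum_le_sum fun i _ => by rw [inner_add_right]; exact abs_add_le _ _
    have := mul_le_mul_of_nonneg_left h2 hK
    linarith
  smul c a := by
    rw [h.smul, mul_add, mul_left_comm |c| K, Finset.mul_sum (a := |c|)]
    simp only [real_inner_smul_right, abs_mul]
  pos a ha := by
    have := h.pos a ha
    have : 0 ≤ K * ∑ i, |⟪v i, a⟫| := mul_nonneg hK (Finset.sum_nonneg fun i _ => abs_nonneg _)
    linarith

variable {N N' : Vec n → ℝ} {f g : Vec n → Vec n}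

/-- A linear map inverts an isometry of spheres. -/
theorem SphIso.exists_linear (h : SphIso N N' f g) (hn : 0 < n) :
    ∃ T : Vec n →ₗ[ℝ] Vec n, ∀ x, N x = 1 → T (f x) = x := by
  let W : Submodule ℝ (Vec n) :=
    { carrier := {ξ | ∃ η : Vec n, ∀ x, N x = 1 → ⟪η, f x⟫ = ⟪ξ, x⟫}
      add_mem' := by
        rintro a b ⟨p, hp⟩ ⟨q, hq⟩
        exact ⟨p + q, fun x hx => by rw [inner_add_left, inner_add_left, hp x hx, hq x hx]⟩
      zero_mem' := ⟨0, fun x _ => by rw [inner_zero_left, inner_zero_left]⟩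
      smul_mem' := by
        rintro c a ⟨p, hp⟩
        exact ⟨c • p, fun x hx => by rw [real_inner_smul_left, real_inner_smul_left, hp x hx]⟩ }
  by_cases hW : W = ⊤
  · have hall : ∀ i : Fin n, ∃ η : Vec n, ∀ x, N x = 1 → ⟪η, f x⟫ = x i := fun i => by
      obtain ⟨η, hη⟩ : EuclideanSpace.single i (1 : ℝ) ∈ W := hW ▸ Submodule.mem_top
      exact ⟨η, fun x hx => by rw [hη x hx, EuclideanSpace.inner_single_left]; simp⟩
    choose η hη using hall
    refine ⟨((WithLp.linearEquiv 2 ℝ (Fin n → ℝ)).symm.toLinearMap).comp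
      (LinearMap.pi fun i => (innerSL ℝ (η i)).toLinearMap), fun x hx => ?_⟩
    ext i
    simpa using hη i x hx
  exfalso
  obtain ⟨e0, he0, he00⟩ := Submodule.exists_mem_ne_zero_of_ne_bot
    (mt (Submodule.orthogonal_eq_bot_iff).1 hW)
  set e := (N e0)⁻¹ • e0 with he
  have heN : N e = 1 := h.hN.norm_unit he00
  have heW : e ∈ Wᗮ := Submodule.smul_mem _ _ he0
  obtain ⟨ζ, hζ1, hζ2⟩ := h.hN.exists_norming e
  rw [heN] at hζ2
  set bW := Module.finBasis ℝ W with hbW
  have hmem : ∀ i, ∃ η : Vec n, ∀ x, N x = 1 → ⟪η, f x⟫ = ⟪(bW i : Vec n), x⟫ := fun i => (bW i).2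
  choose η hη using hmem
  obtain ⟨cl, hcl, hlow⟩ := h.hN.isNrm_dual.exists_lower
  set E := LinearMap.toContinuousLinearMap bW.equivFun.toLinearMap with hE
  set Cb := ‖E‖ / cl with hCb
  have hCb0 : 0 ≤ Cb := div_nonneg E.opNorm_nonneg hcl.le
  set c : ℝ := (1 / 2) ^ (n + 1) with hc
  have hc0 : 0 < c := by positivity
  set K := (Cb + 1) / c with hK
  have hK0 : 0 < K := by positivity
  set N2 : Vec n → ℝ := fun z => N z + K * ∑ i, |⟪(bW i : Vec n), z⟫| with hN2
  set N2' : Vec n → ℝ := fun z => N' z + K * ∑ i, |⟪η i, z⟫| with hN2'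
  have h2 : IsNrm N2 := h.hN.add_abs hK0.le _
  have h2' : IsNrm N2' := h.hN'.add_abs hK0.le _
  have hiso : ∀ x y, N x = 1 → N y = 1 → N2' (f x - f y) = N2 (x - y) := fun x y hx hy => by
    simp only [hN2, hN2', h.iso x y hx hy, inner_sub_right, hη _ x hx, hη _ y hy]
  obtain ⟨ξ, hξ, hmax⟩ := h.hN.exists_max h2 hn
  have hξW : ξ ∈ W := h.rigid h2 h2' hn hiso hξ hmax
  have hupper : ∀ v, |⟪ξ, v⟫| ≤ Cb / K * N2 v := by
    intro v
    set w : W := ⟨ξ, hξW⟩ with hw
    have hcoef : ∀ i, |bW.equivFun w i| ≤ Cb := fun i => by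
      calc |bW.equivFun w i| = ‖(E w) i‖ := (Real.norm_eq_abs _).symm
        _ ≤ ‖E w‖ := norm_le_pi_norm _ i
        _ ≤ ‖E‖ * ‖w‖ := E.le_opNorm w
        _ ≤ Cb := by
            rw [hCb, le_div_iff₀ hcl, mul_assoc]
            refine mul_le_of_le_one_right E.opNorm_nonneg ?_
            rw [mul_comm]
            exact (hlow ξ).trans hξ
    have hsum : ξ = ∑ i, bW.equivFun w i • (bW i : Vec n) := by
      have := congrArg (fun z : W => (z : Vec n)) (bW.sum_equivFun w)
      simp only [Submodule.coe_sum, Submodule.coe_smul] at this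
      exact this.symm
    calc |⟪ξ, v⟫| = |∑ i, bW.equivFun w i * ⟪(bW i : Vec n), v⟫| := by
          conv_lhs => rw [hsum]
          simp only [sum_inner, real_inner_smul_left]
      _ ≤ ∑ i, |bW.equivFun w i * ⟪(bW i : Vec n), v⟫| := Finset.abs_sum_le_sum_abs _ _
      _ ≤ ∑ i, Cb * |⟪(bW i : Vec n), v⟫| := Finset.sum_le_sum fun i _ => by
          rw [abs_mul]; exact mul_le_mul_of_nonneg_right (hcoef i) (abs_nonneg _)
      _ = Cb / K * (K * ∑ i, |⟪(bW i : Vec n), v⟫|) := by
          rw [← Finset.mul_sum, ← mul_assoc, div_mul_cancel₀ _ hK0.ne']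
      _ ≤ Cb / K * N2 v :=
          mul_le_mul_of_nonneg_left (le_add_of_nonneg_left (h.hN.nonneg v))
            (div_nonneg hCb0 hK0.le)
  have hN2e : N2 e = 1 := by
    have : ∀ i, ⟪(bW i : Vec n), e⟫ = 0 := fun i => heW _ (bW i).2
    simp [hN2, this, heN]
  have hlo := h2.le_quad hn (ζ := ζ) (e := e) (by rw [hζ2]; exact one_pos)
  rw [hζ2, hN2e, one_mul, div_one, ← hc] at hlo
  have hV0 : volume {q | dual N2 q < 1} ≠ 0 := (h2.isNrm_dual.volume_lt_pos one_pos).ne'
  have hVt := h2.isNrm_dual.volume_lt_ne_top 1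
  have := ENNReal.toReal_mono (ENNReal.mul_ne_top ENNReal.ofReal_ne_top hVt)
    (hlo.trans ((hmax ζ hζ1).trans (h2.quad_le hn hupper)))
  rw [ENNReal.toReal_mul, ENNReal.toReal_mul, ENNReal.toReal_ofReal (sq_nonneg _),
    ENNReal.toReal_ofReal (sq_nonneg _)] at this
  have hd : Cb / K < c := by
    rw [div_lt_iff₀ hK0, hK, mul_div_cancel₀ _ hc0.ne']
    exact lt_add_one _
  have hlt := pow_lt_pow_left₀ hd (div_nonneg hCb0 hK0.le) two_ne_zero
  exact (mul_lt_mul_of_pos_right hlt (ENNReal.toReal_pos hV0 hVt)).not_ge this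

/-- Isometries between the spheres of a finite-dimensional space and of any normed space extend
linearly. -/
theorem tingley_finiteDim {X Y : Type*} [NormedAddCommGroup X] [NormedSpace ℝ X]
    [FiniteDimensional ℝ X] [Nontrivial X] [NormedAddCommGroup Y] [NormedSpace ℝ Y]
    (f : Metric.sphere (0 : X) 1 → Metric.sphere (0 : Y) 1) (hsurj : Function.Surjective f)
    (hiso : ∀ a b, ‖(f a : Y) - f b‖ = ‖(a : X) - b‖) :
    ∃ T : X ≃ₗᵢ[ℝ] Y, ∀ a : Metric.sphere (0 : X) 1, T a = f a := by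
  have hne : (Metric.sphere (0 : X) 1).Nonempty :=
    NormedSpace.sphere_nonempty.2 zero_le_one
  have hfc : Continuous fun a => (f a : Y) :=
    (LipschitzWith.of_dist_le_mul (K := 1) fun a b => by
      rw [NNReal.coe_one, one_mul, dist_eq_norm, hiso]
      exact le_of_eq (dist_eq_norm (a : X) b).symm).continuous
  have : CompactSpace (Metric.sphere (0 : X) 1) :=
    isCompact_iff_compactSpace.1 (isCompact_sphere 0 1)
  have hY : FiniteDimensional ℝ Y := by
    refine FiniteDimensional.of_isCompact_closedBall₀ ℝ one_pos ?_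
    have hc : IsCompact ((fun p : ℝ × Metric.sphere (0 : X) 1 => p.1 • (f p.2 : Y)) ''
        (Icc (0 : ℝ) 1 ×ˢ univ)) :=
      (isCompact_Icc.prod isCompact_univ).image (continuous_fst.smul (hfc.comp continuous_snd))
    refine hc.of_isClosed_subset Metric.isClosed_closedBall fun y hy => ?_
    rw [mem_closedBall_zero_iff] at hy
    rcases eq_or_ne y 0 with rfl | hy0
    · exact ⟨(0, ⟨_, hne.choose_spec⟩), ⟨⟨le_rfl, zero_le_one⟩, trivial⟩, zero_smul _ _⟩
    · obtain ⟨a, ha⟩ := hsurj ⟨‖y‖⁻¹ • y, by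
        rw [mem_sphere_zero_iff_norm, norm_smul, norm_inv, norm_norm,
          inv_mul_cancel₀ (norm_ne_zero_iff.2 hy0)]⟩
      refine ⟨(‖y‖, a), ⟨⟨norm_nonneg y, hy⟩, trivial⟩, ?_⟩
      simp only [ha, smul_inv_smul₀ (norm_ne_zero_iff.2 hy0)]
  set n := Module.finrank ℝ X with hn_def
  have hn : 0 < n := Module.finrank_pos
  suffices key : ∀ (m : ℕ) (eY : Y ≃L[ℝ] Vec m), ∃ T : X ≃ₗᵢ[ℝ] Y,
      ∀ a : Metric.sphere (0 : X) 1, T a = f a from key _ (toEuclidean (E := Y))
  intro m eY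
  set eX : X ≃L[ℝ] Vec n := toEuclidean with heX
  set N : Vec n → ℝ := fun v => ‖eX.symm v‖ with hN
  set N' : Vec m → ℝ := fun w => ‖eY.symm w‖ with hN'
  set f0 : Vec n → Vec m := fun v =>
    if hv : ‖eX.symm v‖ = 1 then eY (f ⟨eX.symm v, mem_sphere_zero_iff_norm.2 hv⟩) else 0 with hf0
  set g0 : Vec m → Vec n := fun w =>
    if hw : ‖eY.symm w‖ = 1 then
      eX ((Function.surjInv hsurj ⟨eY.symm w, mem_sphere_zero_iff_norm.2 hw⟩ :
        Metric.sphere (0 : X) 1) : X) else 0 with hg0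
  have hfinj : Function.Injective f := fun a b hab => by
    have := hiso a b
    rw [hab, sub_self, norm_zero, eq_comm, norm_eq_zero, sub_eq_zero] at this
    exact Subtype.ext this
  have hSI : SphIso N N' f0 g0 := by
    refine ⟨⟨fun a b => ?_, fun c a => ?_, fun a ha => ?_⟩, ⟨fun a b => ?_, fun c a => ?_,
      fun a ha => ?_⟩, fun x hx => ?_, fun y hy => ?_, fun x hx => ?_, fun y hy => ?_,
      fun x y hx hy => ?_⟩
    · simp only [hN, map_add]; exact norm_add_le _ _
    · simp only [hN, map_smul, norm_smul, Real.norm_eq_abs]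
    · simpa [hN] using ha
    · simp only [hN', map_add]; exact norm_add_le _ _
    · simp only [hN', map_smul, norm_smul, Real.norm_eq_abs]
    · simpa [hN'] using ha
    · simp only [hN, hN'] at *
      simp only [hf0, dif_pos hx, ContinuousLinearEquiv.symm_apply_apply, norm_eq_of_mem_sphere]
    · simp only [hN, hN'] at *
      simp only [hg0, dif_pos hy, ContinuousLinearEquiv.symm_apply_apply, norm_eq_of_mem_sphere]
    · simp only [hN] at hx
      have h1 : ‖eY.symm (f0 x)‖ = 1 := by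
        simp only [hf0, dif_pos hx, ContinuousLinearEquiv.symm_apply_apply, norm_eq_of_mem_sphere]
      simp only [hg0, dif_pos h1]
      rw [show (⟨eY.symm (f0 x), mem_sphere_zero_iff_norm.2 h1⟩ : Metric.sphere (0 : Y) 1)
          = f ⟨eX.symm x, mem_sphere_zero_iff_norm.2 hx⟩ from Subtype.ext (by
            simp only [hf0, dif_pos hx, ContinuousLinearEquiv.symm_apply_apply]),
        Function.leftInverse_surjInv ⟨hfinj, hsurj⟩]
      simp
    · simp only [hN'] at hy
      have h1 : ‖eX.symm (g0 y)‖ = 1 := by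
        simp only [hg0, dif_pos hy, ContinuousLinearEquiv.symm_apply_apply, norm_eq_of_mem_sphere]
      simp only [hf0, dif_pos h1]
      rw [show (⟨eX.symm (g0 y), mem_sphere_zero_iff_norm.2 h1⟩ : Metric.sphere (0 : X) 1)
          = Function.surjInv hsurj ⟨eY.symm y, mem_sphere_zero_iff_norm.2 hy⟩ from Subtype.ext (by
            simp only [hg0, dif_pos hy, ContinuousLinearEquiv.symm_apply_apply]),
        Function.surjInv_eq hsurj]
      simp
    · simp only [hN, hN'] at *
      simp only [hf0, dif_pos hx, dif_pos hy, map_sub, ContinuousLinearEquiv.symm_apply_apply, hiso]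
  obtain rfl : m = n := hSI.dim_eq
  obtain ⟨T, hT⟩ := hSI.exists_linear hn
  have hTF : ∀ z, T (hext N f0 z) = z := fun z => by
    rcases eq_or_ne z 0 with rfl | hz
    · rw [hSI.hext_zero, map_zero]
    · rw [hext, map_smul, hT _ (hSI.hN.norm_unit hz), unit, smul_inv_smul₀ (hSI.hN.pos z hz).ne']
  have hsur : Function.Surjective T := fun z => ⟨_, hTF z⟩
  set Te := LinearEquiv.ofBijective T ⟨LinearMap.injective_iff_surjective.2 hsur, hsur⟩ with hTe
  have hF : ∀ z, Te.symm z = hext N f0 z := fun z => by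
    rw [LinearEquiv.symm_apply_eq]
    exact (hTF z).symm
  refine ⟨⟨eX.toLinearEquiv.trans (Te.symm.trans eY.symm.toLinearEquiv), fun x => ?_⟩, fun a => ?_⟩
  · show ‖eY.symm (Te.symm (eX x))‖ = ‖x‖
    rw [hF]
    exact (hSI.norm_hext (eX x)).trans (by simp [hN])
  · show eY.symm (Te.symm (eX a)) = f a
    have ha : N (eX a) = 1 := by simp [hN]
    rw [hF, hSI.hext_eq ha]
    have ha' : ‖eX.symm (eX a)‖ = 1 := ha
    simp only [hf0, dif_pos ha', ContinuousLinearEquiv.symm_apply_apply, Subtype.coe_eta]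

end Vale.Agent.P084
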